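import Crest.Agent.H0534.Path
import Crest.Prelude.Def_AmpDamp

/-! Channels: positivity, blocks of `N ⊗ Ψ`, and the single-state bound. -/

set_option autoImplicit false
open Real Matrix Crest.Quantum Crest.MathPhysics.AmpDamp
open scoped ComplexOrder Kronecker

namespace Crest.Agent.H0534

variable {d e : Type*} [Fintype d] [DecidableEq d] [Fintype e] [DecidableEq e]

/-- The properties of the second channel which are used. -/
structure Good (Ψ : Matrix d d ℂ → Matrix e e ℂ) : Prop where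
  lin : IsLinearMap ℂ Ψ
  pos2 : ∀ M : Matrix (Bool × d) (Bool × d) ℂ, M.PosSemidef → (blockwise Ψ M).PosSemidef
  tp : IsTracePreserving Ψ

omit [DecidableEq d] [DecidableEq e] in
lemma Good.pos {Ψ : Matrix d d ℂ → Matrix e e ℂ} (h : Good Ψ) {X : Matrix d d ℂ}
    (hX : X.PosSemidef) : (Ψ X).PosSemidef := by
  have := (h.pos2 _ (hX.submatrix Prod.snd)).submatrix (Prod.mk false)
  exact this

omit [DecidableEq d] [DecidableEq e] in
lemma Good.dens {Ψ : Matrix d d ℂ → Matrix e e ℂ} (h : Good Ψ) {X : Matrix d d ℂ}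
    (hX : IsDensity X) : IsDensity (Ψ X) := ⟨h.pos hX.1, by rw [h.tp, hX.2]⟩

omit [DecidableEq d] [DecidableEq e] in
lemma good_of_channel {Ψ : Matrix d d ℂ → Matrix e e ℂ} (h : IsChannel Ψ) : Good Ψ := by
  refine ⟨h.1, fun M hM => ?_, h.2.2⟩
  have := (h.2.1 2 _ (hM.submatrix (Prod.map finTwoEquiv id))).submatrix
    (Prod.map finTwoEquiv.symm id)
  convert this using 1
  ext ⟨s, i⟩ ⟨t, j⟩
  simp only [blockwise, of_apply, submatrix_apply, Prod.map_fst, Prod.map_snd, id_eq]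
  congr 1
  ext a b
  simp [block]

omit [DecidableEq d] [DecidableEq e] in
lemma good_of_kraus {Ψ : Matrix d d ℂ → Matrix e e ℂ} {ι : Type*} [Fintype ι]
    (K : ι → Matrix e d ℂ) (h : ∀ M, Ψ M = ∑ r, K r * M * (K r)ᴴ) (tp : IsTracePreserving Ψ) :
    Good Ψ := by
  refine ⟨⟨fun x y => ?_, fun c x => ?_⟩, fun M hM => ?_, tp⟩
  · simp only [h, Matrix.mul_add, Matrix.add_mul, Finset.sum_add_distrib]
  · simp only [h, Matrix.mul_smul, Matrix.smul_mul, Finset.smul_sum]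
  · have : blockwise Ψ M = ∑ r, ((1 : Matrix Bool Bool ℂ) ⊗ₖ K r) * M *
        ((1 : Matrix Bool Bool ℂ) ⊗ₖ K r)ᴴ := by
      ext ⟨s, i⟩ ⟨t, j⟩
      simp only [blockwise, of_apply, h, Matrix.sum_apply]
      refine Finset.sum_congr rfl fun r _ => ?_
      cases s <;> cases t <;>
        simp [mul_apply, Fintype.sum_prod_type, block, one_apply, conjTranspose_apply]
    rw [this]
    exact posSemidef_sum _ fun r _ => hM.mul_mul_conjTranspose_same _

/-- Splitting a qubit index. -/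
def bs (e : Type*) : e ⊕ e ≃ Bool × e := (Equiv.boolProdEquivSum e).symm

omit [Fintype e] [DecidableEq e] in
lemma sub_bs (M : Matrix (Bool × e) (Bool × e) ℂ) : M.submatrix (bs e) (bs e) =
    fromBlocks (block M false false) (block M false true) (block M true false)
      (block M true true) := by
  ext (i | i) (j | j) <;> rfl

omit [Fintype d] [DecidableEq d] [Fintype e] [DecidableEq e] in
lemma block_blockwise (Ψ : Matrix d d ℂ → Matrix e e ℂ) (M : Matrix (Bool × d) (Bool × d) ℂ)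
    (s t : Bool) : block (blockwise Ψ M) s t = Ψ (block M s t) := rfl

omit [Fintype e] [DecidableEq e] in
lemma block_sum {ι : Type*} [Fintype ι] (q : ι → ℂ) (M : ι → Matrix (Bool × e) (Bool × e) ℂ)
    (s t : Bool) : block (∑ a, q a • M a) s t = ∑ a, q a • block (M a) s t := by
  ext i j
  simp [block, Matrix.sum_apply]

omit [DecidableEq e] in
lemma trace_blocks (M : Matrix (Bool × e) (Bool × e) ℂ) :
    M.trace = (block M false false).trace + (block M true true).trace := by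
  rw [← trace_submatrix_equiv M (bs e), sub_bs, trace_fromBlocks']

section
omit [Fintype d] [DecidableEq d] [Fintype e] [DecidableEq e]
variable (γ ν : ℝ) (Ψ : Matrix d d ℂ → Matrix e e ℂ) (M : Matrix (Bool × d) (Bool × d) ℂ)

lemma qt00 : block (qubitTensor (gadMap γ ν) Ψ M) false false =
    ((1 - γ * ν : ℝ) : ℂ) • Ψ (block M false false) +
      ((γ * (1 - ν) : ℝ) : ℂ) • Ψ (block M true true) := by
  ext i j
  simp [block, qubitTensor, qubitCoeff, gadMap, add_comm]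

lemma qt11 : block (qubitTensor (gadMap γ ν) Ψ M) true true =
    ((γ * ν : ℝ) : ℂ) • Ψ (block M false false) +
      ((1 - γ + γ * ν : ℝ) : ℂ) • Ψ (block M true true) := by
  ext i j
  simp [block, qubitTensor, qubitCoeff, gadMap, add_comm]

lemma qt01 : block (qubitTensor (gadMap γ ν) Ψ M) false true =
    ((√(1 - γ) : ℝ) : ℂ) • Ψ (block M false true) := by
  ext i j
  simp [block, qubitTensor, qubitCoeff, gadMap]

lemma qt10 : block (qubitTensor (gadMap γ ν) Ψ M) true false =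
    ((√(1 - γ) : ℝ) : ℂ) • Ψ (block M true false) := by
  ext i j
  simp [block, qubitTensor, qubitCoeff, gadMap]
end

/-- Determinant of the output of a pure state with excited population `p`. -/
def Dv (γ ν p : ℝ) : ℝ := γ * ν * (1 - ν) + γ * (1 - γ) * (p - ν) ^ 2

lemma gadRate_eq (γ ν p : ℝ) :
    gadRate γ ν p = binEntropy ((1 - γ) * p + γ * ν) - E2 1 (Dv γ ν p) := by
  rw [E2_one]; rfl

lemma Dv_nonneg {γ ν : ℝ} (hγ : γ ∈ Set.Icc (0 : ℝ) 1) (hν : ν ∈ Set.Icc (0 : ℝ) 1) (p : ℝ) :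
    0 ≤ Dv γ ν p := by
  have := hγ.1; have := hν.1; have := sub_nonneg.2 hγ.2; have := sub_nonneg.2 hν.2
  unfold Dv; positivity

lemma Dv_le {γ ν p : ℝ} (hγ : γ ∈ Set.Icc (0 : ℝ) 1) (hp : p ∈ Set.Icc (0 : ℝ) 1) :
    4 * Dv γ ν p ≤ 1 := by
  have h1 := mul_nonneg (sub_nonneg.2 hγ.2) (mul_nonneg hp.1 (sub_nonneg.2 hp.2))
  have : 1 - 4 * Dv γ ν p = (1 - 2 * ((1 - γ) * p + γ * ν)) ^ 2 + 4 * ((1 - γ) * (p * (1 - p))) := by
    unfold Dv; ring
  nlinarith [sq_nonneg (1 - 2 * ((1 - γ) * p + γ * ν))]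

lemma Dv_jensen {γ ν : ℝ} (hγ : γ ∈ Set.Icc (0 : ℝ) 1) (hν : ν ∈ Set.Icc (0 : ℝ) 1)
    {ι : Type*} [Fintype ι] (q v : ι → ℝ) (hq : ∀ a, 0 ≤ q a) (hq1 : ∑ a, q a = 1)
    (hv : ∀ a, v a ∈ Set.Icc (0 : ℝ) 1) (hp : ∑ a, q a * v a ∈ Set.Icc (0 : ℝ) 1) :
    E2 1 (Dv γ ν (∑ a, q a * v a)) ≤ ∑ a, q a * E2 1 (Dv γ ν (v a)) := by
  set p := ∑ a, q a * v a with hpdef
  have hsq : ∀ x, (2 * √(Dv γ ν x)) ^ 2 / 4 = Dv γ ν x := fun x => by
    rw [mul_pow, sq_sqrt (Dv_nonneg hγ hν x)]; ring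
  have hle : ∀ x ∈ Set.Icc (0 : ℝ) 1, 2 * √(Dv γ ν x) ≤ 1 := fun x hx => by
    have := Dv_le (ν := ν) hγ hx
    have h2 : √(Dv γ ν x) ≤ 1 / 2 := by
      rw [sqrt_le_left (by norm_num)]; linarith
    linarith
  have := conc_jensen q (fun a => 2 * √(Dv γ ν (v a))) hq hq1 (fun a => by positivity)
    (fun a => hle _ (hv a)) (2 * √(Dv γ ν p)) (by positivity) (hle p hp) ?_
  · simpa only [hsq] using this
  have c0 : 0 ≤ γ * ν * (1 - ν) := by
    have := hγ.1; have := hν.1; have := sub_nonneg.2 hν.2; positivity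
  have c1 : 0 ≤ γ * (1 - γ) := mul_nonneg hγ.1 (sub_nonneg.2 hγ.2)
  have cs : ∀ x, γ * ν * (1 - ν) + γ * (1 - γ) * ((x - ν) * (p - ν)) ≤
      √(Dv γ ν x) * √(Dv γ ν p) := fun x => by
    rw [← sqrt_mul (Dv_nonneg hγ hν x)]
    refine le_trans (le_abs_self _) (abs_le_sqrt ?_)
    unfold Dv
    nlinarith [mul_nonneg (mul_nonneg c0 c1) (sq_nonneg (x - p))]
  have h1 := Finset.sum_le_sum fun a (_ : a ∈ Finset.univ) =>
    mul_le_mul_of_nonneg_left (cs (v a)) (hq a)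
  have h2 : ∑ a, q a * (γ * ν * (1 - ν) + γ * (1 - γ) * ((v a - ν) * (p - ν))) = Dv γ ν p := by
    have : ∀ a, q a * (γ * ν * (1 - ν) + γ * (1 - γ) * ((v a - ν) * (p - ν))) =
        q a * (γ * ν * (1 - ν) - γ * (1 - γ) * (ν * (p - ν))) +
          q a * v a * (γ * (1 - γ) * (p - ν)) := fun a => by ring
    simp only [this, Finset.sum_add_distrib, ← Finset.sum_mul, hq1, ← hpdef]
    unfold Dv; ring
  have h3 : ∑ a, q a * (√(Dv γ ν (v a)) * √(Dv γ ν p)) =
      (∑ a, q a * √(Dv γ ν (v a))) * √(Dv γ ν p) := by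
    rw [Finset.sum_mul]; exact Finset.sum_congr rfl fun a _ => by ring
  rw [h2, h3] at h1
  have h4 : ∑ a, q a * (2 * √(Dv γ ν (v a))) = 2 * ∑ a, q a * √(Dv γ ν (v a)) := by
    rw [Finset.mul_sum]; exact Finset.sum_congr rfl fun a _ => by ring
  rw [h4]
  have h5 : 0 ≤ ∑ a, q a * √(Dv γ ν (v a)) :=
    Finset.sum_nonneg fun a _ => mul_nonneg (hq a) (sqrt_nonneg _)
  rcases (sqrt_nonneg (Dv γ ν p)).eq_or_lt with h0 | h0
  · rw [← h0]; linarith
  · have h6 := mul_self_sqrt (Dv_nonneg hγ hν p)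
    have : √(Dv γ ν p) ≤ ∑ a, q a * √(Dv γ ν (v a)) := by
      refine le_of_mul_le_mul_right ?_ h0
      linarith
    linarith

omit [DecidableEq d] in
lemma dens_blocks {ρ : Matrix (Bool × d) (Bool × d) ℂ} (hρ : IsDensity ρ) :
    (block ρ false false).PosSemidef ∧ (block ρ true true).PosSemidef ∧
      (block ρ true true).trace.re ∈ Set.Icc (0 : ℝ) 1 ∧
      (block ρ false false).trace.re = 1 - (block ρ true true).trace.re := by
  have h0 : (block ρ false false).PosSemidef := hρ.1.submatrix (Prod.mk false)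
  have h1 : (block ρ true true).PosSemidef := hρ.1.submatrix (Prod.mk true)
  have h2 := congrArg Complex.re (trace_blocks ρ)
  rw [hρ.2, Complex.add_re, Complex.one_re] at h2
  have := re_trace_nonneg h0
  exact ⟨h0, h1, ⟨re_trace_nonneg h1, by linarith⟩, by linarith⟩

omit [DecidableEq d] in
/-- The single-state bound. -/
lemma key_state {γ ν : ℝ} (hγ : γ ∈ Set.Icc (0 : ℝ) 1) (hν : ν ∈ Set.Icc (0 : ℝ) 1)
    {Ψ : Matrix d d ℂ → Matrix e e ℂ} (hΨ : Good Ψ) {ρ : Matrix (Bool × d) (Bool × d) ℂ}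
    (hρ : IsDensity ρ) :
    (qubitTensor (gadMap γ ν) Ψ ρ).PosSemidef ∧
    E2 1 (Dv γ ν (block ρ true true).trace.re) + St (Ψ (block ρ false false)) +
      St (Ψ (block ρ true true)) ≤ vnEntropy (qubitTensor (gadMap γ ν) Ψ ρ) := by
  obtain ⟨-, -, h2, h3⟩ := dens_blocks hρ
  have h4 := (hΨ.pos2 ρ hρ.1).submatrix (bs e)
  rw [sub_bs] at h4
  simp only [block_blockwise] at h4
  have h5 : Ψ (block ρ true false) = (Ψ (block ρ false true))ᴴ :=
    (isHermitian_fromBlocks_iff.1 h4.1).2.1.symm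
  rw [h5] at h4
  have g1 := hγ.1; have g2 := sub_nonneg.2 hγ.2; have n1 := hν.1; have n2 := sub_nonneg.2 hν.2
  obtain ⟨k1, k2⟩ := gad_key h4 (α := 1 - γ * ν) (β := γ * (1 - ν)) (γ := γ * ν)
    (δ := 1 - γ + γ * ν) (l := √(1 - γ)) (by nlinarith [mul_nonneg g1 n2]) (by positivity)
    (by positivity) (by positivity) (sqrt_nonneg _) (by ring) (by ring)
    (by rw [sq_sqrt g2]; ring) (u := 1 - (block ρ true true).trace.re)
    (v := (block ρ true true).trace.re) (by rw [hΨ.tp, h3]) (by rw [hΨ.tp]) (by ring)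
  rw [← h5, ← qt00, ← qt11, ← qt01, ← qt10, ← sub_bs] at k1 k2
  have k3 := (posSemidef_submatrix_equiv (bs e)).1 k1
  rw [ent_submatrix k3] at k2
  refine ⟨k3, le_trans (le_of_eq ?_) k2⟩
  congr 3
  unfold Dv; ring

lemma exists_nrm [Nonempty d] {X : Matrix d d ℂ} (hX : X.PosSemidef) :
    ∃ Y : Matrix d d ℂ, IsDensity Y ∧ X = (X.trace.re : ℂ) • Y := by
  rcases (re_trace_nonneg hX).eq_or_lt with h | h
  · refine ⟨(((Fintype.card d : ℝ)⁻¹ : ℝ) : ℂ) • 1, ⟨psd_smul PosSemidef.one (by positivity), ?_⟩, ?_⟩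
    · simp
    · rw [← h, eq_zero_of_trace hX h.symm]; simp
  · refine ⟨(((X.trace.re)⁻¹ : ℝ) : ℂ) • X, ⟨psd_smul hX (by positivity), ?_⟩, ?_⟩
    · rw [trace_smul, smul_eq_mul]
      conv_lhs => rhs; rw [trace_eq_re hX]
      rw [← Complex.ofReal_mul, inv_mul_cancel₀ h.ne']; simp
    · rw [smul_smul, ← Complex.ofReal_mul, mul_inv_cancel₀ h.ne']; simp

omit [DecidableEq d] in
lemma St_good {Ψ : Matrix d d ℂ → Matrix e e ℂ} (hΨ : Good Ψ) {Y : Matrix d d ℂ}
    (hY : IsDensity Y) {c : ℝ} (hc : 0 ≤ c) : St (Ψ ((c : ℂ) • Y)) = c * vnEntropy (Ψ Y) := by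
  rw [hΨ.lin.map_smul, St_smul (hΨ.pos hY.1) hc, St, (hΨ.dens hY).2]
  simp

/-- Kraus operators of the generalized amplitude-damping map. -/
noncomputable def gadK (γ ν : ℝ) (r : Bool × Bool) : Matrix Bool Bool ℂ := of fun s s' =>
  match r, s, s' with
  | (false, false), false, false => ((√(1 - ν) : ℝ) : ℂ)
  | (false, false), true, true => ((√(1 - ν) * √(1 - γ) : ℝ) : ℂ)
  | (false, true), false, true => ((√(1 - ν) * √γ : ℝ) : ℂ)
  | (true, false), false, false => ((√ν * √(1 - γ) : ℝ) : ℂ)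
  | (true, false), true, true => ((√ν : ℝ) : ℂ)
  | (true, true), true, false => ((√ν * √γ : ℝ) : ℂ)
  | _, _, _ => 0

lemma coeff_kraus {γ ν : ℝ} (hγ : γ ∈ Set.Icc (0 : ℝ) 1) (hν : ν ∈ Set.Icc (0 : ℝ) 1)
    (s t s' t' : Bool) : qubitCoeff (gadMap γ ν) s t s' t' =
      ∑ r, gadK γ ν r s s' * star (gadK γ ν r t t') := by
  have a1 : ((√γ : ℝ) : ℂ) ^ 2 = γ := by rw [← Complex.ofReal_pow, sq_sqrt hγ.1]
  have a2 : ((√ν : ℝ) : ℂ) ^ 2 = ν := by rw [← Complex.ofReal_pow, sq_sqrt hν.1]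
  have a3 : ((√(1 - γ) : ℝ) : ℂ) ^ 2 = 1 - γ := by
    rw [← Complex.ofReal_pow, sq_sqrt (sub_nonneg.2 hγ.2)]; simp
  have a4 : ((√(1 - ν) : ℝ) : ℂ) ^ 2 = 1 - ν := by
    rw [← Complex.ofReal_pow, sq_sqrt (sub_nonneg.2 hν.2)]; simp
  cases s <;> cases t <;> cases s' <;> cases t' <;>
    simp [qubitCoeff, gadMap, gadK, Fintype.sum_prod_type] <;> ring_nf <;>
    simp only [a1, a2, a3, a4] <;> ring

lemma coeff_trace (γ ν : ℝ) (s' t' : Bool) :
    ∑ s, qubitCoeff (gadMap γ ν) s s s' t' = if s' = t' then 1 else 0 := by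
  cases s' <;> cases t' <;> simp [qubitCoeff, gadMap] <;> ring

lemma good_power {γ ν : ℝ} (hγ : γ ∈ Set.Icc (0 : ℝ) 1) (hν : ν ∈ Set.Icc (0 : ℝ) 1) (n : ℕ) :
    Good (qubitPower n (gadMap γ ν)) := by
  refine good_of_kraus (ι := Fin n → Bool × Bool)
    (fun r => of fun σ σ' => ∏ i, gadK γ ν (r i) (σ i) (σ' i)) (fun M => ?_) (fun M => ?_)
  · ext σ τ
    simp only [qubitPower, of_apply, coeff_kraus hγ hν, Fintype.prod_sum, Matrix.sum_apply,
      mul_apply, conjTranspose_apply, Finset.sum_mul, Finset.prod_mul_distrib, star_prod]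
    rw [Finset.sum_comm]
    conv_lhs => enter [2, τ']; rw [Finset.sum_comm]
    rw [Finset.sum_comm]
    refine Finset.sum_congr rfl fun r _ => Finset.sum_congr rfl fun τ' _ =>
      Finset.sum_congr rfl fun σ' _ => by ring
  · simp only [trace, diag_apply, qubitPower, of_apply]
    rw [Finset.sum_comm]
    refine Finset.sum_congr rfl fun σ' _ => ?_
    rw [Finset.sum_comm]
    simp only [← Finset.sum_mul]
    have : ∀ τ' : Fin n → Bool, ∑ σ : Fin n → Bool,
        ∏ i, qubitCoeff (gadMap γ ν) (σ i) (σ i) (σ' i) (τ' i) = if σ' = τ' then 1 else 0 := by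
      intro τ'
      rw [← Fintype.prod_sum (fun i s => qubitCoeff (gadMap γ ν) s s (σ' i) (τ' i))]
      simp only [coeff_trace, Fintype.prod_boole, funext_iff]
      congr
    simp [this]

lemma gadMap_coeff (γ ν : ℝ) (M : Matrix Bool Bool ℂ) (s t : Bool) :
    gadMap γ ν M s t = ∑ s', ∑ t', qubitCoeff (gadMap γ ν) s t s' t' * M s' t' := by
  cases s <;> cases t <;> simp [qubitCoeff, gadMap, add_comm]

lemma good_gad {γ ν : ℝ} (hγ : γ ∈ Set.Icc (0 : ℝ) 1) (hν : ν ∈ Set.Icc (0 : ℝ) 1) :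
    Good (gadMap γ ν) := by
  refine good_of_kraus (gadK γ ν) (fun M => ?_) (fun M => ?_)
  · ext s t
    simp only [gadMap_coeff, coeff_kraus hγ hν, Matrix.sum_apply,
      mul_apply, conjTranspose_apply, Finset.sum_mul]
    rw [Finset.sum_comm]
    conv_lhs => enter [2, τ']; rw [Finset.sum_comm]
    rw [Finset.sum_comm]
    refine Finset.sum_congr rfl fun r _ => Finset.sum_congr rfl fun τ' _ =>
      Finset.sum_congr rfl fun σ' _ => by ring
  · simp [trace, gadMap]; ring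

omit [Fintype d] [DecidableEq d] [Fintype e] [DecidableEq e] in
lemma qt_kron (γ ν : ℝ) {Ψ : Matrix d d ℂ → Matrix e e ℂ} (hΨ : IsLinearMap ℂ Ψ)
    (X : Matrix Bool Bool ℂ) (Y : Matrix d d ℂ) :
    qubitTensor (gadMap γ ν) Ψ (X ⊗ₖ Y) = gadMap γ ν X ⊗ₖ Ψ Y := by
  ext ⟨s, i⟩ ⟨t, j⟩
  have : ∀ s' t', block (X ⊗ₖ Y) s' t' = X s' t' • Y := fun s' t' => by
    ext a b; simp [block]
  simp only [qubitTensor, of_apply, this, hΨ.map_smul, kroneckerMap_apply, gadMap_coeff,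
    Finset.sum_mul, Matrix.smul_apply, smul_eq_mul, mul_assoc]

lemma power_succ (Φ : Matrix Bool Bool ℂ → Matrix Bool Bool ℂ) (n : ℕ)
    (M : Matrix (Fin (n + 1) → Bool) (Fin (n + 1) → Bool) ℂ) :
    (qubitPower (n + 1) Φ M).submatrix (Fin.consEquiv fun _ => Bool) (Fin.consEquiv fun _ => Bool) =
      qubitTensor Φ (qubitPower n Φ)
        (M.submatrix (Fin.consEquiv fun _ => Bool) (Fin.consEquiv fun _ => Bool)) := by
  ext ⟨s, σ⟩ ⟨t, τ⟩
  simp only [qubitPower, qubitTensor, submatrix_apply, of_apply, block]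
  rw [← (Fin.consEquiv fun _ : Fin (n + 1) => Bool).sum_comp, Fintype.sum_prod_type]
  refine Finset.sum_congr rfl fun s' _ => ?_
  simp only [Finset.mul_sum]
  conv_rhs => rw [Finset.sum_comm]
  refine Finset.sum_congr rfl fun σ' _ => ?_
  rw [← (Fin.consEquiv fun _ : Fin (n + 1) => Bool).sum_comp, Fintype.sum_prod_type]
  refine Finset.sum_congr rfl fun t' _ => Finset.sum_congr rfl fun τ' _ => ?_
  simp [Fin.prod_univ_succ, Fin.consEquiv, mul_assoc]

end Crest.Agent.H0534
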