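import Crest.Agent.H0534.Rep

/-! Log-determinant inequalities for positive definite complex matrices. -/

set_option autoImplicit false
open Real Matrix
open scoped ComplexOrder

namespace Crest.Agent.H0534

variable {n m : Type*} [Fintype n] [DecidableEq n] [Fintype m] [DecidableEq m]

/-- `log |det X|`. -/
noncomputable def ld (X : Matrix n n ℂ) : ℝ := log ‖X.det‖

lemma ld_mul {A B : Matrix n n ℂ} (hA : A.det ≠ 0) (hB : B.det ≠ 0) :
    ld (A * B) = ld A + ld B := by
  unfold ld
  rw [det_mul, norm_mul, log_mul (norm_ne_zero_iff.2 hA) (norm_ne_zero_iff.2 hB)]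

lemma ld_conjT (A : Matrix n n ℂ) : ld Aᴴ = ld A := by
  unfold ld
  rw [det_conjTranspose, norm_star]

lemma ld_inv (A : Matrix n n ℂ) : ld A⁻¹ = -ld A := by
  unfold ld
  rw [det_nonsing_inv, Ring.inverse_eq_inv', norm_inv, log_inv]

lemma ld_diagonal (x : n → ℝ) (hx : ∀ i, 0 < x i) :
    ld (diagonal fun i => (x i : ℂ)) = ∑ i, log (x i) := by
  unfold ld
  rw [det_diagonal, norm_prod, log_prod fun i _ => by simpa using (hx i).ne']
  refine Finset.sum_congr rfl fun i _ => ?_
  rw [Complex.norm_real, Real.norm_eq_abs, abs_of_pos (hx i)]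

lemma ld_submatrix (A : Matrix n n ℂ) (e : m ≃ n) : ld (A.submatrix e e) = ld A := by
  unfold ld
  rw [det_submatrix_equiv_self]

lemma ld_le_trace {X : Matrix n n ℂ} (hX : X.PosDef) : ld X ≤ X.trace.re - Fintype.card n := by
  unfold ld
  rw [hX.1.det_eq_prod_eigenvalues, hX.1.trace_eq_sum_eigenvalues, norm_prod,
    log_prod fun i _ => by simpa using (hX.eigenvalues_pos i).ne', Complex.re_sum]
  have : (Fintype.card n : ℝ) = ∑ _i : n, (1 : ℝ) := by simp
  rw [this, ← Finset.sum_sub_distrib]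
  refine Finset.sum_le_sum fun i _ => ?_
  have h := hX.eigenvalues_pos i
  have e : ‖(RCLike.ofReal (hX.1.eigenvalues i) : ℂ)‖ = hX.1.eigenvalues i := by
    rw [RCLike.norm_ofReal, abs_of_pos h]
  rw [e]
  exact log_le_sub_one_of_pos h

lemma chol_fin {k : ℕ} {X : Matrix (Fin k) (Fin k) ℂ} (hX : X.PosDef) :
    ∃ L : Matrix (Fin k) (Fin k) ℂ, L * Lᴴ = X ∧ L.BlockTriangular OrderDual.toDual := by
  have h1 := LDL.lower_conj_diag hX
  have h2 := LDL.diag_eq_lowerInv_conj hX
  have hT : (LDL.lowerInv hX).BlockTriangular OrderDual.toDual := fun i j hij =>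
    LDL.lowerInv_triangular hX (by simpa using hij)
  have hL : (LDL.lower hX).BlockTriangular OrderDual.toDual :=
    blockTriangular_inv_of_blockTriangular hT
  have hD : (LDL.diag hX).PosSemidef := by
    rw [h2]; exact hX.posSemidef.mul_mul_conjTranspose_same _
  have hd : ∀ i, 0 ≤ LDL.diagEntries hX i := by
    intro i
    have := hD.diag_nonneg (i := i)
    simpa [LDL.diag] using this
  set s : Fin k → ℂ := fun i => ((√(LDL.diagEntries hX i).re : ℝ) : ℂ) with hs
  have hss : diagonal s * (diagonal s)ᴴ = LDL.diag hX := by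
    rw [diagonal_conjTranspose, diagonal_mul_diagonal, LDL.diag]
    congr 1
    funext i
    have h := hd i
    rw [Complex.nonneg_iff] at h
    simp only [hs, Pi.star_apply, Complex.star_def, Complex.conj_ofReal]
    rw [← Complex.ofReal_mul, mul_self_sqrt h.1]
    exact Complex.ext (by simp) (by simpa using h.2)
  refine ⟨LDL.lower hX * diagonal s, ?_, hL.mul (blockTriangular_diagonal s)⟩
  refine Eq.trans ?_ h1
  rw [conjTranspose_mul, ← hss]
  simp only [Matrix.mul_assoc]

/-- Cholesky factorisation, with the triangularity recorded through determinants. -/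
lemma chol {X : Matrix n n ℂ} (hX : X.PosDef) :
    ∃ L : Matrix n n ℂ, L * Lᴴ = X ∧
      ∀ c : n → ℂ, (L + diagonal c).det = ∏ j, (L j j + c j) := by
  set e := Fintype.equivFin n
  obtain ⟨L, h1, h2⟩ := chol_fin (hX.submatrix (e := e.symm) e.symm.injective)
  refine ⟨L.submatrix e e, ?_, fun c => ?_⟩
  · rw [conjTranspose_submatrix, submatrix_mul_equiv, h1]
    ext i j; simp
  · have : L.submatrix e e + diagonal c = (L + diagonal (c ∘ e.symm)).submatrix e e := by
      ext i j
      simp [diagonal_apply]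
    rw [this, det_submatrix_equiv_self,
      det_of_isLowerTriangular _ (h2.add (blockTriangular_diagonal _)), ← e.prod_comp]
    simp

lemma ld_tangent {X K : Matrix n n ℂ} (hX : X.PosDef) (hK : K.PosDef) :
    ld X ≤ ld K + (K⁻¹ * X).trace.re - Fintype.card n := by
  obtain ⟨L, hL, -⟩ := chol hK
  have hdet : L.det ≠ 0 := by
    intro h
    have := hK.det_pos
    rw [← hL, det_mul, h, zero_mul] at this
    exact lt_irrefl _ this
  have hu : IsUnit L.det := isUnit_iff_ne_zero.2 hdet
  have hi : (L⁻¹).det ≠ 0 := by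
    rw [det_nonsing_inv, Ring.inverse_eq_inv']; exact inv_ne_zero hdet
  have hiu : IsUnit L⁻¹ := (isUnit_iff_isUnit_det _).2 (isUnit_iff_ne_zero.2 hi)
  have hY : (L⁻¹ * X * (L⁻¹)ᴴ).PosDef := hiu.posDef_star_right_conjugate_iff.2 hX
  have h1 := ld_le_trace hY
  have hXd : X.det ≠ 0 := hX.det_pos.ne'
  have hi' : ((L⁻¹)ᴴ).det ≠ 0 := by rw [det_conjTranspose]; simpa using hi
  rw [ld_mul (by rw [det_mul]; exact mul_ne_zero hi hXd) hi', ld_mul hi hXd, ld_conjT,
    ld_inv] at h1
  have h2 : ld K = ld L + ld L := by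
    rw [← hL, ld_mul hdet (by rw [det_conjTranspose]; simpa using hdet), ld_conjT]
  have h3 : (L⁻¹ * X * (L⁻¹)ᴴ).trace = (K⁻¹ * X).trace := by
    rw [trace_mul_cycle, ← hL, Matrix.mul_inv_rev, conjTranspose_nonsing_inv]
  rw [h3] at h1
  linarith

omit [DecidableEq n] in
lemma re_trace_nonneg {A : Matrix n n ℂ} (hA : A.PosSemidef) : 0 ≤ A.trace.re :=
  (Complex.nonneg_iff.1 hA.trace_nonneg).1

lemma trace_mul_nonneg {A B : Matrix n n ℂ} (hA : A.PosDef) (hB : B.PosSemidef) :
    0 ≤ (A * B).trace.re := by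
  obtain ⟨L, hL, -⟩ := chol hA
  rw [← hL, Matrix.mul_assoc, trace_mul_comm]
  exact re_trace_nonneg (hB.conjTranspose_mul_mul_same L)

lemma ld_mono {Y Z : Matrix n n ℂ} (hY : Y.PosDef) (h : (Z - Y).PosSemidef) : ld Y ≤ ld Z := by
  have hZ : Z.PosDef := by
    have := hY.add_posSemidef h
    rwa [add_sub_cancel] at this
  have h1 := ld_tangent hY hZ
  have h2 := trace_mul_nonneg hZ.inv h
  rw [Matrix.mul_sub, nonsing_inv_mul _ (isUnit_iff_ne_zero.2 hZ.det_pos.ne'), trace_sub,
    trace_one, Complex.sub_re] at h2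
  simp only [Complex.natCast_re] at h2
  linarith

omit [Fintype n] [DecidableEq n] in
lemma diag_re_pos {X : Matrix n n ℂ} (hX : X.PosDef) (j : n) : 0 < (X j j).re :=
  (Complex.pos_iff.1 (hX.diag_pos (i := j))).1

omit [Fintype n] [DecidableEq n] in
lemma diag_re_nonneg {X : Matrix n n ℂ} (hX : X.PosSemidef) (j : n) : 0 ≤ (X j j).re :=
  (Complex.nonneg_iff.1 (hX.diag_nonneg (i := j))).1

omit [Fintype n] [DecidableEq n] in
lemma diag_eq_re {X : Matrix n n ℂ} (hX : X.IsHermitian) (j : n) : X j j = ((X j j).re : ℂ) :=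
  (hX.coe_re_apply_self j).symm

lemma ld_hadamard {X : Matrix n n ℂ} (hX : X.PosDef) : ld X ≤ ∑ j, log (X j j).re := by
  have hp := diag_re_pos hX
  have hK : (diagonal fun j => ((X j j).re : ℂ)).PosDef :=
    PosDef.diagonal fun j => by exact_mod_cast hp j
  have h1 := ld_tangent hX hK
  rw [ld_diagonal _ hp] at h1
  have h2 : ((diagonal fun j => ((X j j).re : ℂ))⁻¹ * X).trace = Fintype.card n := by
    have : (diagonal fun j => ((X j j).re : ℂ))⁻¹ = diagonal fun j => (((X j j).re : ℂ))⁻¹ := by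
      refine inv_eq_right_inv ?_
      rw [diagonal_mul_diagonal, ← diagonal_one]
      congr 1
      funext j
      exact mul_inv_cancel₀ (by exact_mod_cast (hp j).ne')
    rw [this]
    simp only [trace, diag_apply, diagonal_mul]
    rw [Finset.sum_congr rfl (g := fun _ => (1 : ℂ))]
    · simp
    · intro j _
      conv_lhs => rw [diag_eq_re hX.1 j]
      simp only [Complex.ofReal_re]
      exact inv_mul_cancel₀ (by exact_mod_cast (hp j).ne')
  rw [h2] at h1
  simp only [Complex.natCast_re] at h1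
  linarith

lemma ld_concave {ι : Type*} [Fintype ι] (w : ι → ℝ) (hw : ∀ i, 0 ≤ w i) (hw1 : ∑ i, w i = 1)
    (X : ι → Matrix n n ℂ) (hX : ∀ i, (X i).PosDef) {K : Matrix n n ℂ} (hK : K.PosDef)
    (hKX : K = ∑ i, (w i : ℂ) • X i) : ∑ i, w i * ld (X i) ≤ ld K := by
  have h1 : ∑ i, w i * ld (X i) ≤
      ∑ i, w i * (ld K + (K⁻¹ * X i).trace.re - Fintype.card n) :=
    Finset.sum_le_sum fun i _ => mul_le_mul_of_nonneg_left (ld_tangent (hX i) hK) (hw i)
  have h2 : ∑ i, w i * (K⁻¹ * X i).trace.re = Fintype.card n := by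
    have : (K⁻¹ * K).trace = Fintype.card n := by
      rw [nonsing_inv_mul _ (isUnit_iff_ne_zero.2 hK.det_pos.ne'), trace_one]
    have h3 := congrArg Complex.re this
    conv at h3 => lhs; rhs; rhs; rhs; rw [hKX]
    rw [Matrix.mul_sum, trace_sum, Complex.re_sum] at h3
    simp only [Matrix.mul_smul, trace_smul, smul_eq_mul, Complex.re_ofReal_mul,
      Complex.natCast_re] at h3
    exact h3
  simp only [mul_sub, mul_add, Finset.sum_sub_distrib, Finset.sum_add_distrib, ← Finset.sum_mul,
    hw1, h2] at h1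
  linarith

/-- The key determinant inequality. -/
lemma ld_H {X N E : Matrix n n ℂ} (κ : n → ℝ) (hX : X.PosDef)
    (h : (fromBlocks N (diagonal fun j => (κ j : ℂ)) (diagonal fun j => (κ j : ℂ)) E).PosSemidef) :
    ld X + ∑ j, log (1 + κ j ^ 2 / ((X j j).re * (E j j).re)) ≤ ld (X + N) := by
  obtain ⟨L, hL, hdet⟩ := chol hX
  have hE : E.PosSemidef := by
    have := h.submatrix Sum.inr
    convert this using 1
    ext i j; simp
  have hdL : L.det = ∏ j, L j j := by simpa using hdet 0
  have hL0 : L.det ≠ 0 := by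
    intro h
    have := hX.det_pos
    rw [← hL, det_mul, h, zero_mul] at this
    exact lt_irrefl _ this
  have hLj : ∀ j, L j j ≠ 0 := fun j h0 =>
    hL0 (hdL ▸ Finset.prod_eq_zero (Finset.mem_univ j) h0)
  set ε : n → ℝ := fun j => (E j j).re with hε
  have hε0 : ∀ j, 0 ≤ ε j := diag_re_nonneg hE
  set θ : n → ℝ := fun j => κ j ^ 2 / (‖L j j‖ ^ 2 * ε j) with hθ
  have hθ0 : ∀ j, 0 ≤ θ j := fun j => by have := hε0 j; positivity
  set b : n → ℂ := fun j => (κ j : ℂ) / (star (L j j) * ε j) with hb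
  set K : Matrix n n ℂ := diagonal fun j => (κ j : ℂ) with hK
  have hKh : Kᴴ = K := by
    rw [hK, diagonal_conjTranspose]; congr 1; funext j; simp
  have G1 : (fromBlocks X L Lᴴ (1 : Matrix n n ℂ)).PosSemidef := by
    have := posSemidef_self_mul_conjTranspose (fromRows L (1 : Matrix n n ℂ))
    rw [conjTranspose_fromRows_eq_fromCols_conjTranspose, fromRows_mul_fromCols, hL] at this
    simpa using this
  have G2 := h.conjTranspose_mul_mul_same (fromBlocks (1 : Matrix n n ℂ) 0 0 (diagonal b))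
  rw [fromBlocks_conjTranspose, fromBlocks_multiply, fromBlocks_multiply] at G2
  simp only [conjTranspose_one, conjTranspose_zero, Matrix.one_mul, Matrix.zero_mul, add_zero,
    zero_add, Matrix.mul_one, Matrix.mul_zero] at G2
  have G := G1.add G2
  rw [fromBlocks_add] at G
  set Bm := L + K * diagonal b with hBm
  set Cm := 1 + (diagonal b)ᴴ * E * diagonal b with hCm
  have hB' : Lᴴ + (diagonal b)ᴴ * K = Bmᴴ := by
    rw [hBm, conjTranspose_add, conjTranspose_mul, hKh]
  rw [hB'] at G
  have hC : Cm.PosDef := PosDef.one.add_posSemidef (hE.conjTranspose_mul_mul_same _)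
  letI : Invertible Cm := hC.isUnit.invertible
  have hS := (PosDef.fromBlocks₂₂ (X + N) Bm hC).1 G
  have hLsq : ∀ j, L j j * star (L j j) = ((‖L j j‖ ^ 2 : ℝ) : ℂ) := fun j => by
    rw [Complex.star_def, Complex.mul_conj, Complex.normSq_eq_norm_sq]
  have hBd : Bm.det = ∏ j, (L j j * (1 + θ j)) := by
    rw [hBm, hK, diagonal_mul_diagonal, hdet]
    refine Finset.prod_congr rfl fun j _ => ?_
    simp only [hb, hθ]
    push_cast
    have := hLsq j
    push_cast at this
    rw [← this]
    have h1 := hLj j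
    have h2 : star (L j j) ≠ 0 := by simpa using h1
    by_cases h3 : (ε j : ℂ) = 0
    · simp [h3]
    · field_simp
  have hθ1 : ∀ j, (1 + (θ j : ℂ)) ≠ 0 := fun j => by
    have : (0 : ℝ) < 1 + θ j := by have := hθ0 j; positivity
    exact_mod_cast this.ne'
  have hBd0 : Bm.det ≠ 0 := by
    rw [hBd]; exact Finset.prod_ne_zero_iff.2 fun j _ => mul_ne_zero (hLj j) (hθ1 j)
  have hBu : IsUnit Bm := (isUnit_iff_isUnit_det _).2 (isUnit_iff_ne_zero.2 hBd0)
  have hY : (Bm * Cm⁻¹ * Bmᴴ).PosDef := hBu.posDef_star_right_conjugate_iff.2 hC.inv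
  have m1 := ld_mono hY hS
  have hCi : (Cm⁻¹).det ≠ 0 := hC.inv.det_pos.ne'
  rw [ld_mul (by rw [det_mul]; exact mul_ne_zero hBd0 hCi)
    (by rw [det_conjTranspose]; simpa using hBd0), ld_mul hBd0 hCi, ld_conjT, ld_inv] at m1
  have m2 := ld_hadamard hC
  have hCj : ∀ j, (Cm j j).re = 1 + θ j := by
    intro j
    have e1 : Cm j j = 1 + star (b j) * (ε j : ℂ) * b j := by
      rw [hCm, diagonal_conjTranspose, Matrix.add_apply, one_apply_eq, mul_diagonal, diagonal_mul,
        diag_eq_re hE.1 j]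
      rfl
    have e2 : star (b j) * (ε j : ℂ) * b j = (θ j : ℂ) := by
      simp only [hb, hθ]
      push_cast
      have := hLsq j
      push_cast at this
      rw [← this]
      have h1 := hLj j
      have h2 : star (L j j) ≠ 0 := by simpa using h1
      by_cases h3 : (ε j : ℂ) = 0
      · simp [h3]
      · rw [star_div₀, star_mul', star_star]
        simp only [Complex.star_def, Complex.conj_ofReal] at h2 ⊢
        field_simp
    rw [e1, e2]
    simp
  simp only [hCj] at m2
  have m3 : ld Bm = ld L + ∑ j, log (1 + θ j) := by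
    unfold ld
    rw [hBd, Finset.prod_mul_distrib, ← hdL, norm_mul, log_mul (norm_ne_zero_iff.2 hL0)
      (norm_ne_zero_iff.2 (Finset.prod_ne_zero_iff.2 fun j _ => hθ1 j)), norm_prod,
      log_prod fun j _ => norm_ne_zero_iff.2 (hθ1 j)]
    congr 1
    refine Finset.sum_congr rfl fun j _ => ?_
    have : (1 + (θ j : ℂ)) = ((1 + θ j : ℝ) : ℂ) := by push_cast; rfl
    rw [this, Complex.norm_real, Real.norm_eq_abs, abs_of_pos (by have := hθ0 j; positivity)]
  have m4 : ld X = ld L + ld L := by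
    rw [← hL, ld_mul hL0 (by rw [det_conjTranspose]; simpa using hL0), ld_conjT]
  have m5 : ∑ j, log (1 + κ j ^ 2 / ((X j j).re * ε j)) ≤ ∑ j, log (1 + θ j) := by
    refine Finset.sum_le_sum fun j _ => ?_
    have hXj : ‖L j j‖ ^ 2 ≤ (X j j).re := by
      rw [← hL, mul_apply, Complex.re_sum]
      have e : ∀ k, (L j k * Lᴴ k j).re = ‖L j k‖ ^ 2 := fun k => by
        rw [conjTranspose_apply, Complex.star_def, Complex.mul_conj, Complex.normSq_eq_norm_sq,
          Complex.ofReal_re]
      simp only [e]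
      exact Finset.single_le_sum (f := fun k => ‖L j k‖ ^ 2) (fun k _ => by positivity)
        (Finset.mem_univ j)
    have hp : 0 < ‖L j j‖ ^ 2 := by have := norm_pos_iff.2 (hLj j); positivity
    have := hε0 j
    have hXp := diag_re_pos hX j
    refine log_le_log (by positivity) ?_
    simp only [hθ]
    rcases (hε0 j).eq_or_lt with h0 | h0
    · rw [← h0]; simp
    · gcongr
  linarith

end Crest.Agent.H0534
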