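import Crest.Agent.H0534.Det
import Crest.Prelude.Def_QState

/-! Basic properties of the von Neumann entropy of positive semidefinite matrices. -/

set_option autoImplicit false
open Real Matrix Crest.Quantum
open scoped ComplexOrder Kronecker

namespace Crest.Agent.H0534

variable {n m : Type*} [Fintype n] [DecidableEq n] [Fintype m] [DecidableEq m]

lemma exists_diag {X : Matrix n n ℂ} (hX : X.IsHermitian) :
    ∃ U : Matrix n n ℂ, U * Uᴴ = 1 ∧ Uᴴ * U = 1 ∧
      X = U * diagonal (fun i => (hX.eigenvalues i : ℂ)) * Uᴴ := by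
  refine ⟨hX.eigenvectorUnitary, ?_, ?_, ?_⟩
  · exact Unitary.coe_mul_star_self _
  · exact Unitary.coe_star_mul_self _
  · conv_lhs => rw [hX.spectral_theorem, Unitary.conjStarAlgAut_apply]
    rfl

lemma ld_conj {U : Matrix n n ℂ} (hU : U * Uᴴ = 1) (Y : Matrix n n ℂ) :
    ld (U * Y * Uᴴ) = ld Y := by
  unfold ld
  rw [det_mul, det_mul, mul_right_comm, ← det_mul, hU, det_one, one_mul]

lemma shift_conj {U : Matrix n n ℂ} (hU : U * Uᴴ = 1) (Y : Matrix n n ℂ) (t : ℝ) :
    (t : ℂ) • (1 : Matrix n n ℂ) + U * Y * Uᴴ = U * ((t : ℂ) • 1 + Y) * Uᴴ := by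
  rw [Matrix.mul_add, Matrix.add_mul, Matrix.mul_smul, Matrix.mul_one, Matrix.smul_mul, hU]

omit [Fintype n] in
lemma posDef_shift {X : Matrix n n ℂ} (hX : X.PosSemidef) {t : ℝ} (ht : 0 < t) :
    ((t : ℂ) • (1 : Matrix n n ℂ) + X).PosDef :=
  (PosDef.one.smul (by exact_mod_cast ht)).add_posSemidef hX

lemma Rep.diag {U : Matrix n n ℂ} (hU : U * Uᴴ = 1) (x : n → ℝ) (hx : ∀ i, 0 ≤ x i) :
    Rep (fun t => ld ((t : ℂ) • 1 + U * diagonal (fun i => (x i : ℂ)) * Uᴴ)) (Fintype.card n)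
      (∑ i, x i) (∑ i, negMulLog (x i)) := by
  refine (Rep.sum Finset.univ fun i _ => Rep.point (x i) (hx i)).congr ?_ (by simp) rfl rfl
  intro t ht
  rw [shift_conj hU, ld_conj hU, ← ld_diagonal (fun i => t + x i) fun i => by
    have := hx i; positivity]
  congr 1
  ext i j
  by_cases h : i = j <;> simp [h]

lemma ent_eq {X : Matrix n n ℂ} (hX : X.IsHermitian) :
    vnEntropy X = ∑ i, negMulLog (hX.eigenvalues i) := by
  unfold vnEntropy
  rw [dif_pos hX, ← Finset.sum_neg_distrib]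
  refine Finset.sum_congr rfl fun i _ => ?_
  rw [negMulLog]; ring

lemma re_trace_eq {X : Matrix n n ℂ} (hX : X.IsHermitian) :
    X.trace.re = ∑ i, hX.eigenvalues i := by
  rw [hX.trace_eq_sum_eigenvalues, Complex.re_sum]; simp

lemma Rep.ent {X : Matrix n n ℂ} (hX : X.PosSemidef) :
    Rep (fun t => ld ((t : ℂ) • 1 + X)) (Fintype.card n) X.trace.re (vnEntropy X) := by
  obtain ⟨U, h1, -, h3⟩ := exists_diag hX.1
  refine (Rep.diag h1 _ hX.eigenvalues_nonneg).congr (fun t _ => by rw [← h3]) rfl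
    (re_trace_eq hX.1).symm (ent_eq hX.1).symm

omit [Fintype n] in
lemma posSemidef_diag (x : n → ℝ) (hx : ∀ i, 0 ≤ x i) :
    (diagonal fun i => (x i : ℂ)).PosSemidef :=
  PosSemidef.diagonal fun i => by simpa using hx i

lemma trace_conj {U : Matrix n n ℂ} (hU : Uᴴ * U = 1) (Y : Matrix n n ℂ) :
    (U * Y * Uᴴ).trace = Y.trace := by
  rw [trace_mul_cycle, hU, Matrix.one_mul]

lemma ent_diag {U : Matrix n n ℂ} (hU : U * Uᴴ = 1) (x : n → ℝ) (hx : ∀ i, 0 ≤ x i) :
    vnEntropy (U * diagonal (fun i => (x i : ℂ)) * Uᴴ) = ∑ i, negMulLog (x i) := by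
  refine (Rep.ent ((posSemidef_diag x hx).mul_mul_conjTranspose_same U)).eq (Rep.diag hU x hx)
    rfl ?_ fun _ _ => rfl
  rw [trace_conj (mul_eq_one_comm.1 hU), trace_diagonal, Complex.re_sum]
  simp

lemma ent_diagonal (x : n → ℝ) (hx : ∀ i, 0 ≤ x i) :
    vnEntropy (diagonal (fun i => (x i : ℂ))) = ∑ i, negMulLog (x i) := by
  simpa using ent_diag (U := 1) (by simp) x hx

lemma ent_conj {U X : Matrix n n ℂ} (hU : U * Uᴴ = 1) (hX : X.PosSemidef) :
    vnEntropy (U * X * Uᴴ) = vnEntropy X := by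
  refine (Rep.ent (hX.mul_mul_conjTranspose_same U)).eq (Rep.ent hX) rfl ?_ fun t _ => ?_
  · rw [trace_conj (mul_eq_one_comm.1 hU)]
  · rw [shift_conj hU, ld_conj hU]

omit [DecidableEq n] [DecidableEq m] in
lemma trace_submatrix_equiv (X : Matrix n n ℂ) (e : m ≃ n) :
    (X.submatrix e e).trace = X.trace := by
  simp only [trace, diag_apply, submatrix_apply]
  exact e.sum_comp fun i => X i i

lemma ent_submatrix {X : Matrix n n ℂ} (hX : X.PosSemidef) (e : m ≃ n) :
    vnEntropy (X.submatrix e e) = vnEntropy X := by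
  refine (Rep.ent (hX.submatrix e)).eq (Rep.ent hX) ?_ ?_ fun t _ => ?_
  · rw [Fintype.card_congr e]
  · rw [trace_submatrix_equiv]
  · rw [← ld_submatrix _ e]
    congr 1
    ext i j
    simp [one_apply]

lemma ent_smul {X : Matrix n n ℂ} (hX : X.PosSemidef) {c : ℝ} (hc : 0 ≤ c) :
    vnEntropy ((c : ℂ) • X) = c * vnEntropy X + negMulLog c * X.trace.re := by
  obtain ⟨U, h1, -, h3⟩ := exists_diag hX.1
  have : (c : ℂ) • X = U * diagonal (fun i => ((c * hX.1.eigenvalues i : ℝ) : ℂ)) * Uᴴ := by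
    conv_lhs => rw [h3]
    rw [← Matrix.smul_mul, ← Matrix.mul_smul, ← diagonal_smul]
    congr 3
    funext i
    simp
  rw [this, ent_diag h1 _ fun i => mul_nonneg hc (hX.eigenvalues_nonneg i), ent_eq hX.1,
    re_trace_eq hX.1, Finset.mul_sum, Finset.mul_sum, ← Finset.sum_add_distrib]
  refine Finset.sum_congr rfl fun i _ => ?_
  rw [negMulLog_mul]; ring

omit [Fintype n] [DecidableEq n] in
lemma psd_smul {X : Matrix n n ℂ} (hX : X.PosSemidef) {c : ℝ} (hc : 0 ≤ c) :
    ((c : ℂ) • X).PosSemidef := hX.smul (by exact_mod_cast hc)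

omit [Fintype n] [DecidableEq n] in
lemma psd_sum {ι : Type*} [Fintype ι] (w : ι → ℝ) (hw : ∀ i, 0 ≤ w i)
    (X : ι → Matrix n n ℂ) (hX : ∀ i, (X i).PosSemidef) : (∑ i, (w i : ℂ) • X i).PosSemidef :=
  posSemidef_sum _ fun i _ => psd_smul (hX i) (hw i)

omit [DecidableEq n] in
lemma re_trace_sum {ι : Type*} [Fintype ι] (w : ι → ℝ) (X : ι → Matrix n n ℂ) :
    (∑ i, (w i : ℂ) • X i).trace.re = ∑ i, w i * (X i).trace.re := by
  rw [trace_sum, Complex.re_sum]
  simp

lemma ent_concave {ι : Type*} [Fintype ι] (w : ι → ℝ) (hw : ∀ i, 0 ≤ w i) (hw1 : ∑ i, w i = 1)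
    (X : ι → Matrix n n ℂ) (hX : ∀ i, (X i).PosSemidef) :
    ∑ i, w i * vnEntropy (X i) ≤ vnEntropy (∑ i, (w i : ℂ) • X i) := by
  have hs := psd_sum w hw X hX
  refine (Rep.sum Finset.univ fun i _ => (Rep.ent (hX i)).smul (w i)).le (Rep.ent hs) ?_ ?_ ?_
  · rw [← Finset.sum_mul, hw1, one_mul]
  · rw [re_trace_sum]
  · intro t ht
    refine ld_concave w hw hw1 _ (fun i => posDef_shift (hX i) ht) (posDef_shift hs ht) ?_
    simp only [smul_add, Finset.sum_add_distrib]
    rw [← Finset.sum_smul, ← Complex.ofReal_sum, hw1]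
    simp

/-- Homogeneous version of the entropy. -/
noncomputable def St (X : Matrix n n ℂ) : ℝ := vnEntropy X - negMulLog X.trace.re

lemma St_smul {X : Matrix n n ℂ} (hX : X.PosSemidef) {c : ℝ} (hc : 0 ≤ c) :
    St ((c : ℂ) • X) = c * St X := by
  unfold St
  rw [ent_smul hX hc, trace_smul, smul_eq_mul, Complex.re_ofReal_mul, negMulLog_mul]
  ring

lemma St_zero : St (0 : Matrix n n ℂ) = 0 := by
  simpa using St_smul (PosSemidef.zero (n := n) (R := ℂ)) (c := 0) le_rfl

omit [DecidableEq n] in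
lemma trace_eq_re {X : Matrix n n ℂ} (hX : X.PosSemidef) : X.trace = (X.trace.re : ℂ) :=
  Complex.ext (by simp) (by simpa using (Complex.nonneg_iff.1 hX.trace_nonneg).2.symm)

omit [DecidableEq n] in
lemma eq_zero_of_trace {X : Matrix n n ℂ} (hX : X.PosSemidef) (h : X.trace.re = 0) : X = 0 := by
  refine hX.trace_eq_zero_iff.1 ?_
  rw [trace_eq_re hX, h]; simp

lemma St_add {X Y : Matrix n n ℂ} (hX : X.PosSemidef) (hY : Y.PosSemidef) :
    St X + St Y ≤ St (X + Y) := by
  rcases (re_trace_nonneg hX).eq_or_lt with ha | ha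
  · rw [eq_zero_of_trace hX ha.symm, St_zero, zero_add, zero_add]
  rcases (re_trace_nonneg hY).eq_or_lt with hb | hb
  · rw [eq_zero_of_trace hY hb.symm, St_zero, add_zero, add_zero]
  set a := X.trace.re with ha'
  set b := Y.trace.re with hb'
  have h := ent_concave (ι := Fin 2) ![a / (a + b), b / (a + b)]
    (by intro i; fin_cases i <;> simp <;> positivity) (by simp; field_simp)
    ![(((a + b) / a : ℝ) : ℂ) • X, (((a + b) / b : ℝ) : ℂ) • Y]
    (by
      intro i; fin_cases i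
      · exact psd_smul hX (by positivity)
      · exact psd_smul hY (by positivity))
  simp only [Fin.sum_univ_two, cons_val_zero, cons_val_one, smul_smul, ← Complex.ofReal_mul] at h
  rw [show a / (a + b) * ((a + b) / a) = 1 by field_simp,
    show b / (a + b) * ((a + b) / b) = 1 by field_simp, Complex.ofReal_one, one_smul,
    one_smul] at h
  have e1 := St_smul hX (c := (a + b) / a) (by positivity)
  have e2 := St_smul hY (c := (a + b) / b) (by positivity)
  unfold St at e1 e2 ⊢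
  rw [trace_smul, smul_eq_mul, Complex.re_ofReal_mul] at e1 e2
  rw [← ha', div_mul_cancel₀ _ ha.ne'] at e1
  rw [← hb', div_mul_cancel₀ _ hb.ne'] at e2
  rw [trace_add, Complex.add_re, ← ha', ← hb']
  rw [sub_eq_iff_eq_add.1 e1, sub_eq_iff_eq_add.1 e2] at h
  have e3 : a / (a + b) * ((a + b) / a * (vnEntropy X - negMulLog a) + negMulLog (a + b)) +
      b / (a + b) * ((a + b) / b * (vnEntropy Y - negMulLog b) + negMulLog (a + b)) =
      vnEntropy X - negMulLog a + (vnEntropy Y - negMulLog b) + negMulLog (a + b) := by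
    field_simp; ring
  linarith

omit [Fintype n] [DecidableEq n] [Fintype m] [DecidableEq m] in
lemma psd_block₁ {A : Matrix n n ℂ} {B : Matrix n m ℂ} {B' : Matrix m n ℂ} {C : Matrix m m ℂ}
    (h : (fromBlocks A B B' C).PosSemidef) : A.PosSemidef := by
  have := h.submatrix Sum.inl
  convert this using 1
  ext i j; simp

omit [Fintype n] [DecidableEq n] [Fintype m] [DecidableEq m] in
lemma psd_block₂ {A : Matrix n n ℂ} {B : Matrix n m ℂ} {B' : Matrix m n ℂ} {C : Matrix m m ℂ}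
    (h : (fromBlocks A B B' C).PosSemidef) : C.PosSemidef := by
  have := h.submatrix Sum.inr
  convert this using 1
  ext i j; simp

omit [DecidableEq n] [DecidableEq m] in
lemma psd_blockDiag {A : Matrix n n ℂ} {C : Matrix m m ℂ} (hA : A.PosSemidef)
    (hC : C.PosSemidef) : (fromBlocks A 0 0 C).PosSemidef := by
  classical
  have h1 := hA.mul_mul_conjTranspose_same (fromRows (1 : Matrix n n ℂ) (0 : Matrix m n ℂ))
  have h2 := hC.mul_mul_conjTranspose_same (fromRows (0 : Matrix n m ℂ) (1 : Matrix m m ℂ))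
  have := h1.add h2
  rw [conjTranspose_fromRows_eq_fromCols_conjTranspose, fromRows_mul, fromRows_mul_fromCols,
    conjTranspose_fromRows_eq_fromCols_conjTranspose, fromRows_mul, fromRows_mul_fromCols,
    fromBlocks_add] at this
  simpa using this

omit [DecidableEq n] [DecidableEq m] in
lemma trace_fromBlocks' (A : Matrix n n ℂ) (B : Matrix n m ℂ) (B' : Matrix m n ℂ)
    (C : Matrix m m ℂ) : (fromBlocks A B B' C).trace = A.trace + C.trace := by
  simp [trace, Fintype.sum_sum_type]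

omit [Fintype n] [Fintype m] in
lemma shift_fromBlocks (A : Matrix n n ℂ) (B : Matrix n m ℂ) (B' : Matrix m n ℂ)
    (C : Matrix m m ℂ) (t : ℂ) :
    t • (1 : Matrix (n ⊕ m) (n ⊕ m) ℂ) + fromBlocks A B B' C =
      fromBlocks (t • 1 + A) B B' (t • 1 + C) := by
  rw [← fromBlocks_one, fromBlocks_smul, fromBlocks_add]
  simp

/-- Pinching increases the entropy. -/
lemma ent_pinch {A : Matrix n n ℂ} {B : Matrix n m ℂ} {B' : Matrix m n ℂ} {C : Matrix m m ℂ}
    (h : (fromBlocks A B B' C).PosSemidef) :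
    vnEntropy (fromBlocks A B B' C) ≤ vnEntropy A + vnEntropy C := by
  have hA := psd_block₁ h
  have hC := psd_block₂ h
  refine (Rep.ent h).le ((Rep.ent hA).add (Rep.ent hC)) (by simp) ?_ fun t ht => ?_
  · rw [trace_fromBlocks', Complex.add_re]
  · have hA' := posDef_shift hA ht
    have hC' := posDef_shift hC ht
    have hK := posDef_shift (psd_blockDiag hA hC) ht
    have h1 := ld_tangent (posDef_shift h ht) hK
    rw [shift_fromBlocks, shift_fromBlocks,
      inv_fromBlocks_zero₂₁_of_isUnit_iff _ _ _ (iff_of_true hA'.isUnit hC'.isUnit),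
      fromBlocks_multiply, trace_fromBlocks'] at h1
    simp only [Matrix.mul_zero, Matrix.zero_mul, neg_zero, add_zero, zero_add] at h1
    rw [nonsing_inv_mul _ (isUnit_iff_ne_zero.2 hA'.det_pos.ne'),
      nonsing_inv_mul _ (isUnit_iff_ne_zero.2 hC'.det_pos.ne'), trace_one, trace_one] at h1
    have h2 : ld (fromBlocks ((t : ℂ) • 1 + A) 0 0 ((t : ℂ) • 1 + C)) =
        ld ((t : ℂ) • 1 + A) + ld ((t : ℂ) • 1 + C) := by
      unfold ld
      rw [det_fromBlocks_zero₂₁, norm_mul, log_mul (norm_ne_zero_iff.2 hA'.det_pos.ne')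
        (norm_ne_zero_iff.2 hC'.det_pos.ne')]
    rw [h2] at h1
    simp only [Complex.add_re, Complex.natCast_re, Fintype.card_sum, Nat.cast_add] at h1
    rw [shift_fromBlocks]
    linarith

lemma ent_kron {X : Matrix n n ℂ} {Y : Matrix m m ℂ} (hX : IsDensity X) (hY : IsDensity Y) :
    vnEntropy (X ⊗ₖ Y) = vnEntropy X + vnEntropy Y := by
  obtain ⟨U, h1, -, h3⟩ := exists_diag hX.1.1
  obtain ⟨V, k1, -, k3⟩ := exists_diag hY.1.1
  have e : X ⊗ₖ Y = (U ⊗ₖ V) * diagonal (fun p : n × m =>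
      ((hX.1.1.eigenvalues p.1 * hY.1.1.eigenvalues p.2 : ℝ) : ℂ)) * (U ⊗ₖ V)ᴴ := by
    conv_lhs => rw [h3, k3]
    rw [mul_kronecker_mul, mul_kronecker_mul, diagonal_kronecker_diagonal,
      conjTranspose_kronecker]
    simp
  have hU : (U ⊗ₖ V) * (U ⊗ₖ V)ᴴ = 1 := by
    rw [conjTranspose_kronecker, ← mul_kronecker_mul, h1, k1, one_kronecker_one]
  have t1 : ∑ i, hX.1.1.eigenvalues i = 1 := by rw [← re_trace_eq, hX.2]; simp
  have t2 : ∑ i, hY.1.1.eigenvalues i = 1 := by rw [← re_trace_eq, hY.2]; simp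
  rw [e, ent_diag hU _ fun p => mul_nonneg (hX.1.eigenvalues_nonneg _) (hY.1.eigenvalues_nonneg _),
    ent_eq hX.1.1, ent_eq hY.1.1, Fintype.sum_prod_type]
  simp only [negMulLog_mul, Finset.sum_add_distrib, ← Finset.sum_mul, ← Finset.mul_sum, t1, t2,
    one_mul]

/-- Entropy of a qubit state. -/
lemma ent_two {X : Matrix Bool Bool ℂ} (hX : X.PosSemidef) {d : ℝ} (h1 : X.trace = 1)
    (hd : X false false * X true true - X false true * X true false = d) (hd0 : 0 ≤ d)
    (hd4 : 4 * d ≤ 1) : vnEntropy X = E2 1 d := by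
  refine (Rep.ent hX).eq (Rep.quad zero_le_one hd0 (by linarith)) (by simp) (by simp [h1])
    fun t ht => ?_
  have : ((t : ℂ) • (1 : Matrix Bool Bool ℂ) + X).det = ((t ^ 2 + 1 * t + d : ℝ) : ℂ) := by
    rw [← det_submatrix_equiv_self finTwoEquiv, det_fin_two]
    simp only [trace, diag_apply, Fintype.sum_bool] at h1
    simp [finTwoEquiv]
    rw [← hd]
    linear_combination (t : ℂ) * h1
  unfold ld
  rw [this, Complex.norm_real, Real.norm_eq_abs, abs_of_pos (by positivity)]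

end Crest.Agent.H0534
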