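import Crest.Agent.H0534.Chan

/-! Additivity of the Holevo capacity and of the minimal output entropy. -/

set_option autoImplicit false
open Real Matrix Crest.Quantum Crest.MathPhysics.AmpDamp
open scoped ComplexOrder Kronecker

namespace Crest.Agent.H0534

variable {d e : Type*} [Fintype d] [DecidableEq d] [Fintype e] [DecidableEq e]

/-- Ensembles over an arbitrary finite index type. -/
def Ens {ι : Type*} [Fintype ι] (q : ι → ℝ) (ρ : ι → Matrix d d ℂ) : Prop :=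
  (∀ a, 0 ≤ q a) ∧ ∑ a, q a = 1 ∧ ∀ a, IsDensity (ρ a)

/-- Holevo information over an arbitrary finite index type. -/
noncomputable def hol {ι : Type*} [Fintype ι] (Φ : Matrix d d ℂ → Matrix e e ℂ) (q : ι → ℝ)
    (ρ : ι → Matrix d d ℂ) : ℝ :=
  vnEntropy (∑ a, (q a : ℂ) • Φ (ρ a)) - ∑ a, q a * vnEntropy (Φ (ρ a))

omit [DecidableEq d] in
lemma exists_fin {ι : Type*} [Fintype ι] (Φ : Matrix d d ℂ → Matrix e e ℂ) {q : ι → ℝ}
    {ρ : ι → Matrix d d ℂ} (h : Ens q ρ) :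
    ∃ (m : ℕ) (q' : Fin m → ℝ) (ρ' : Fin m → Matrix d d ℂ), IsEnsemble q' ρ' ∧
      holevoInfo Φ q' ρ' = hol Φ q ρ := by
  set f := (Fintype.equivFin ι).symm
  refine ⟨_, q ∘ f, ρ ∘ f, ⟨fun a => h.1 _, ?_, fun a => h.2.2 _⟩, ?_⟩
  · rw [← h.2.1]; exact f.sum_comp q
  · unfold holevoInfo hol
    rw [← f.sum_comp fun a => (q a : ℂ) • Φ (ρ a), ← f.sum_comp fun a => q a * vnEntropy (Φ (ρ a))]
    rfl

theorem upper [Nonempty d] {γ ν : ℝ} (hγ : γ ∈ Set.Icc (0 : ℝ) 1) (hν : ν ∈ Set.Icc (0 : ℝ) 1)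
    {Ψ : Matrix d d ℂ → Matrix e e ℂ} (hΨ : Good Ψ) {ι : Type*} [Fintype ι] {q : ι → ℝ}
    {ρ : ι → Matrix (Bool × d) (Bool × d) ℂ} (h : Ens q ρ) :
    ∃ p ∈ Set.Icc (0 : ℝ) 1, ∃ (q' : ι ⊕ ι → ℝ) (ρ' : ι ⊕ ι → Matrix d d ℂ), Ens q' ρ' ∧
      hol (qubitTensor (gadMap γ ν) Ψ) q ρ ≤ gadRate γ ν p + hol Ψ q' ρ' := by
  obtain ⟨hq, hq1, hρ⟩ := h
  set v : ι → ℝ := fun a => (block (ρ a) true true).trace.re with hv
  have hb := fun a => dens_blocks (hρ a)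
  have hv01 : ∀ a, v a ∈ Set.Icc (0 : ℝ) 1 := fun a => (hb a).2.2.1
  choose Y0 hY0 hY0' using fun a => exists_nrm (hb a).1
  choose Y1 hY1 hY1' using fun a => exists_nrm (hb a).2.1
  have hA : ∀ a, block (ρ a) false false = ((1 - v a : ℝ) : ℂ) • Y0 a := fun a => by
    rw [hY0' a, (hb a).2.2.2]
  have hC : ∀ a, block (ρ a) true true = ((v a : ℝ) : ℂ) • Y1 a := hY1'
  set p := ∑ a, q a * v a with hp
  have hp01 : p ∈ Set.Icc (0 : ℝ) 1 := by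
    refine ⟨Finset.sum_nonneg fun a _ => mul_nonneg (hq a) (hv01 a).1, ?_⟩
    rw [← hq1]
    exact Finset.sum_le_sum fun a _ => mul_le_of_le_one_right (hq a) (hv01 a).2
  refine ⟨p, hp01, Sum.elim (fun a => q a * (1 - v a)) (fun a => q a * v a), Sum.elim Y0 Y1,
    ⟨?_, ?_, ?_⟩, ?_⟩
  · rintro (a | a)
    · exact mul_nonneg (hq a) (sub_nonneg.2 (hv01 a).2)
    · exact mul_nonneg (hq a) (hv01 a).1
  · rw [Fintype.sum_sum_type, ← Finset.sum_add_distrib]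
    exact (Finset.sum_congr rfl fun a _ => by simp; ring).trans hq1
  · rintro (a | a)
    · exact hY0 a
    · exact hY1 a
  have ks := fun a => key_state hγ hν hΨ (hρ a)
  set M := ∑ a, (q a : ℂ) • qubitTensor (gadMap γ ν) Ψ (ρ a) with hM
  have hMp : M.PosSemidef := psd_sum q hq _ fun a => (ks a).1
  have hM' := hMp.submatrix (bs e)
  have s1 := ent_submatrix hMp (bs e)
  rw [sub_bs] at hM' s1
  have s2 := ent_pinch hM'
  have s3 := St_add (psd_block₁ hM') (psd_block₂ hM')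
  have tr : ∀ (c : ℝ) (X : Matrix e e ℂ), ((c : ℂ) • X).trace.re = c * X.trace.re := by
    intro c X
    rw [trace_smul, smul_eq_mul, Complex.re_ofReal_mul]
  have t0 : ∀ a, (Ψ (block (ρ a) false false)).trace.re = 1 - v a := fun a => by
    rw [hΨ.tp, (hb a).2.2.2]
  have t1 : ∀ a, (Ψ (block (ρ a) true true)).trace.re = v a := fun a => by rw [hΨ.tp]
  have T1 : (block M true true).trace.re = (1 - γ) * p + γ * ν := by
    rw [hM, block_sum, re_trace_sum]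
    simp only [qt11, trace_add, Complex.add_re, tr, t0, t1]
    have : ∀ a, q a * (γ * ν * (1 - v a) + (1 - γ + γ * ν) * v a) =
        q a * v a * (1 - γ) + q a * (γ * ν) := fun a => by ring
    simp only [this, Finset.sum_add_distrib, ← Finset.sum_mul, hq1, ← hp]
    ring
  have T0 : (block M false false).trace.re = 1 - ((1 - γ) * p + γ * ν) := by
    rw [hM, block_sum, re_trace_sum]
    simp only [qt00, trace_add, Complex.add_re, tr, t0, t1]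
    have : ∀ a, q a * ((1 - γ * ν) * (1 - v a) + γ * (1 - ν) * v a) =
        q a * v a * (γ - 1) + q a * (1 - γ * ν) := fun a => by ring
    simp only [this, Finset.sum_add_distrib, ← Finset.sum_mul, hq1, ← hp]
    ring
  have hsum : block M false false + block M true true =
      ∑ x : ι ⊕ ι, ((Sum.elim (fun a => q a * (1 - v a)) (fun a => q a * v a) x : ℝ) : ℂ) •
        Ψ (Sum.elim Y0 Y1 x) := by
    rw [hM, block_sum, block_sum, Fintype.sum_sum_type, ← Finset.sum_add_distrib,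
      ← Finset.sum_add_distrib]
    refine Finset.sum_congr rfl fun a _ => ?_
    rw [qt00, qt11, hA, hC, hΨ.lin.map_smul, hΨ.lin.map_smul]
    simp only [Sum.elim_inl, Sum.elim_inr]
    push_cast
    module
  have s4 : ∑ a, q a * (E2 1 (Dv γ ν (v a)) + (1 - v a) * vnEntropy (Ψ (Y0 a)) +
      v a * vnEntropy (Ψ (Y1 a))) ≤ ∑ a, q a * vnEntropy (qubitTensor (gadMap γ ν) Ψ (ρ a)) := by
    refine Finset.sum_le_sum fun a _ => mul_le_mul_of_nonneg_left ?_ (hq a)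
    have := (ks a).2
    rw [hA a, St_good hΨ (hY0 a) (sub_nonneg.2 (hv01 a).2)] at this
    conv at this => lhs; rhs; rw [hC a, St_good hΨ (hY1 a) (hv01 a).1]
    exact this
  have s5 := Dv_jensen hγ hν q v hq hq1 hv01 hp01
  unfold St at s3
  rw [trace_add, Complex.add_re, T0, T1, sub_add_cancel, negMulLog_one, hsum] at s3
  unfold hol
  rw [gadRate_eq, binEntropy_eq_negMulLog_add_negMulLog_one_sub, ← hM,
    Fintype.sum_sum_type (f := fun x => _ * vnEntropy _)]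
  simp only [Sum.elim_inl, Sum.elim_inr]
  simp only [mul_add, Finset.sum_add_distrib, ← mul_assoc] at s4
  linarith

/-- The pure state with excited population `p` and sign `σ`. -/
noncomputable def psi (p σ : ℝ) : Matrix Bool Bool ℂ :=
  vecMulVec (fun i => if i then ((σ * √p : ℝ) : ℂ) else ((√(1 - p) : ℝ) : ℂ))
    (star fun i => if i then ((σ * √p : ℝ) : ℂ) else ((√(1 - p) : ℝ) : ℂ))

lemma psi_entries {p σ : ℝ} (hp : p ∈ Set.Icc (0 : ℝ) 1) (hσ : σ ^ 2 = 1) :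
    psi p σ false false = ((1 - p : ℝ) : ℂ) ∧ psi p σ true true = (p : ℂ) ∧
    psi p σ false true = ((σ * (√p * √(1 - p)) : ℝ) : ℂ) ∧
    psi p σ true false = ((σ * (√p * √(1 - p)) : ℝ) : ℂ) := by
  simp only [psi, vecMulVec_apply, Pi.star_apply, Complex.star_def, Complex.conj_ofReal,
    ← Complex.ofReal_mul, if_true, Bool.false_eq_true, if_false, Complex.ofReal_inj]
  refine ⟨mul_self_sqrt (sub_nonneg.2 hp.2), ?_, by ring, by ring⟩
  have := mul_self_sqrt hp.1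
  linear_combination (√p * √p) * hσ + this

lemma psi_dens {p σ : ℝ} (hp : p ∈ Set.Icc (0 : ℝ) 1) (hσ : σ ^ 2 = 1) : IsDensity (psi p σ) := by
  refine ⟨posSemidef_vecMulVec_self_star _, ?_⟩
  obtain ⟨h1, h2, -⟩ := psi_entries hp hσ
  simp [trace, h1, h2]

lemma ent_psi {γ ν p σ : ℝ} (hγ : γ ∈ Set.Icc (0 : ℝ) 1) (hν : ν ∈ Set.Icc (0 : ℝ) 1)
    (hp : p ∈ Set.Icc (0 : ℝ) 1) (hσ : σ ^ 2 = 1) :
    vnEntropy (gadMap γ ν (psi p σ)) = E2 1 (Dv γ ν p) := by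
  have hd := (good_gad hγ hν).dens (psi_dens hp hσ)
  refine ent_two hd.1 hd.2 ?_ (Dv_nonneg hγ hν p) (Dv_le hγ hp)
  obtain ⟨h1, h2, h3, h4⟩ := psi_entries hp hσ
  simp only [gadMap, of_apply, h1, h2, h3, h4]
  simp only [and_self, if_true, Bool.true_eq_false, Bool.false_eq_true, if_false, and_false,
    false_and, ← Complex.ofReal_mul, ← Complex.ofReal_add, ← Complex.ofReal_sub,
    Complex.ofReal_inj]
  have a1 := sq_sqrt hp.1
  have a2 := sq_sqrt (sub_nonneg.2 hp.2)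
  have a3 := sq_sqrt (sub_nonneg.2 hγ.2)
  have : √(1 - γ) * (σ * (√p * √(1 - p))) * (√(1 - γ) * (σ * (√p * √(1 - p)))) =
      (1 - γ) * (p * (1 - p)) := by
    rw [show √(1 - γ) * (σ * (√p * √(1 - p))) * (√(1 - γ) * (σ * (√p * √(1 - p)))) =
      √(1 - γ) ^ 2 * (σ ^ 2 * (√p ^ 2 * √(1 - p) ^ 2)) by ring, a1, a2, a3, hσ, one_mul]
  rw [this]
  unfold Dv; ring

lemma two_state {γ ν p : ℝ} (hγ : γ ∈ Set.Icc (0 : ℝ) 1) (hν : ν ∈ Set.Icc (0 : ℝ) 1)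
    (hp : p ∈ Set.Icc (0 : ℝ) 1) :
    ∃ (q : Bool → ℝ) (ρ : Bool → Matrix Bool Bool ℂ), Ens q ρ ∧
      hol (gadMap γ ν) q ρ = gadRate γ ν p := by
  refine ⟨fun _ => 1 / 2, fun b => psi p (if b then 1 else -1),
    ⟨fun _ => by norm_num, by simp, fun b => psi_dens hp (by cases b <;> simp)⟩, ?_⟩
  unfold hol
  have h1 : ∀ b : Bool, vnEntropy (gadMap γ ν (psi p (if b then 1 else -1))) = E2 1 (Dv γ ν p) :=
    fun b => ent_psi hγ hν hp (by cases b <;> simp)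
  have h2 : ∑ b : Bool, ((1 / 2 : ℝ) : ℂ) • gadMap γ ν (psi p (if b then 1 else -1)) =
      diagonal fun i => (((if i then (1 - γ) * p + γ * ν else 1 - ((1 - γ) * p + γ * ν)) : ℝ) : ℂ) := by
    obtain ⟨a1, a2, a3, a4⟩ := psi_entries hp (σ := 1) (by norm_num)
    obtain ⟨b1, b2, b3, b4⟩ := psi_entries hp (σ := -1) (by norm_num)
    ext i j
    cases i <;> cases j <;> simp [gadMap, a1, a2, a3, a4, b1, b2, b3, b4] <;> ring
  have g1 := hγ.1; have g2 := sub_nonneg.2 hγ.2; have n1 := hν.1; have n2 := sub_nonneg.2 hν.2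
  have p1 := hp.1; have p2 := sub_nonneg.2 hp.2
  rw [h2, ent_diagonal _ (by
    intro i; cases i
    · simp only [Bool.false_eq_true, if_false]
      nlinarith [mul_nonneg g2 p2, mul_nonneg g1 n2]
    · simp only [if_true]; positivity), gadRate_eq,
    binEntropy_eq_negMulLog_add_negMulLog_one_sub]
  simp only [h1, Fintype.sum_bool, if_true, Bool.false_eq_true, if_false]
  ring

omit [DecidableEq d] [DecidableEq e] in
lemma dens_kron {X : Matrix d d ℂ} {Y : Matrix e e ℂ} (hX : IsDensity X) (hY : IsDensity Y) :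
    IsDensity (X ⊗ₖ Y) :=
  ⟨hX.1.kronecker hY.1, by rw [trace_kronecker, hX.2, hY.2, one_mul]⟩

omit [DecidableEq d] [DecidableEq e] in
lemma dens_avg {Φ : Matrix d d ℂ → Matrix e e ℂ} (hΦ : Good Φ) {ι : Type*} [Fintype ι]
    {q : ι → ℝ} {ρ : ι → Matrix d d ℂ} (h : Ens q ρ) : IsDensity (∑ a, (q a : ℂ) • Φ (ρ a)) := by
  refine ⟨psd_sum q h.1 _ fun a => hΦ.pos (h.2.2 a).1, ?_⟩
  rw [trace_sum]
  simp only [trace_smul, fun a => (hΦ.dens (h.2.2 a)).2, smul_eq_mul, mul_one]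
  rw [← Complex.ofReal_sum, h.2.1]; simp

omit [DecidableEq d] in
theorem prod_ens {γ ν : ℝ} (hγ : γ ∈ Set.Icc (0 : ℝ) 1) (hν : ν ∈ Set.Icc (0 : ℝ) 1)
    {Ψ : Matrix d d ℂ → Matrix e e ℂ} (hΨ : Good Ψ) {ι κ : Type*} [Fintype ι] [Fintype κ]
    {q₁ : ι → ℝ} {ρ₁ : ι → Matrix Bool Bool ℂ} {q₂ : κ → ℝ} {ρ₂ : κ → Matrix d d ℂ}
    (h₁ : Ens q₁ ρ₁) (h₂ : Ens q₂ ρ₂) :
    ∃ (q : ι × κ → ℝ) (ρ : ι × κ → Matrix (Bool × d) (Bool × d) ℂ), Ens q ρ ∧
      hol (qubitTensor (gadMap γ ν) Ψ) q ρ = hol (gadMap γ ν) q₁ ρ₁ + hol Ψ q₂ ρ₂ := by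
  have hN := good_gad hγ hν
  refine ⟨fun x => q₁ x.1 * q₂ x.2, fun x => ρ₁ x.1 ⊗ₖ ρ₂ x.2,
    ⟨fun x => mul_nonneg (h₁.1 _) (h₂.1 _), ?_, fun x => dens_kron (h₁.2.2 _) (h₂.2.2 _)⟩, ?_⟩
  · rw [Fintype.sum_prod_type]
    simp only [← Finset.mul_sum, h₂.2.1, mul_one, h₁.2.1]
  unfold hol
  simp only [qt_kron γ ν hΨ.lin]
  have e1 : ∑ x : ι × κ, ((q₁ x.1 * q₂ x.2 : ℝ) : ℂ) • (gadMap γ ν (ρ₁ x.1) ⊗ₖ Ψ (ρ₂ x.2)) =
      (∑ a, (q₁ a : ℂ) • gadMap γ ν (ρ₁ a)) ⊗ₖ (∑ b, (q₂ b : ℂ) • Ψ (ρ₂ b)) := by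
    ext ⟨s, i⟩ ⟨t, j⟩
    simp only [Matrix.sum_apply, Matrix.smul_apply, kroneckerMap_apply, smul_eq_mul,
      Fintype.sum_prod_type, Finset.sum_mul_sum]
    refine Finset.sum_congr rfl fun a _ => Finset.sum_congr rfl fun b _ => ?_
    push_cast; ring
  rw [e1, ent_kron (dens_avg hN h₁) (dens_avg hΨ h₂), Fintype.sum_prod_type]
  simp only [fun a b => ent_kron (hN.dens (h₁.2.2 a)) (hΨ.dens (h₂.2.2 b))]
  have e2 : ∀ a b, q₁ a * q₂ b * (vnEntropy (gadMap γ ν (ρ₁ a)) + vnEntropy (Ψ (ρ₂ b))) =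
      q₁ a * vnEntropy (gadMap γ ν (ρ₁ a)) * q₂ b + q₁ a * (q₂ b * vnEntropy (Ψ (ρ₂ b))) :=
    fun a b => by ring
  simp only [e2, Finset.sum_add_distrib, ← Finset.mul_sum, ← Finset.sum_mul, h₁.2.1, h₂.2.1]
  ring

theorem min_out [Nonempty d] {γ ν : ℝ} (hγ : γ ∈ Set.Icc (0 : ℝ) 1) (hν : ν ∈ Set.Icc (0 : ℝ) 1)
    {Ψ : Matrix d d ℂ → Matrix e e ℂ} (hΨ : Good Ψ) {ρ : Matrix (Bool × d) (Bool × d) ℂ}
    (hρ : IsDensity ρ) :
    ∃ (ρ₁ : Matrix Bool Bool ℂ) (ρ₂ : Matrix d d ℂ), IsDensity ρ₁ ∧ IsDensity ρ₂ ∧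
      vnEntropy (gadMap γ ν ρ₁) + vnEntropy (Ψ ρ₂) ≤
        vnEntropy (qubitTensor (gadMap γ ν) Ψ ρ) := by
  obtain ⟨b1, b2, b3, b4⟩ := dens_blocks hρ
  obtain ⟨Y0, hY0, hY0'⟩ := exists_nrm b1
  obtain ⟨Y1, hY1, hY1'⟩ := exists_nrm b2
  have k := (key_state hγ hν hΨ hρ).2
  set v := (block ρ true true).trace.re with hv
  rw [b4] at hY0'
  rw [hY0', hY1', St_good hΨ hY0 (sub_nonneg.2 b3.2), St_good hΨ hY1 b3.1] at k
  have e := ent_psi hγ hν b3 (σ := 1) (by norm_num)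
  rcases le_total (vnEntropy (Ψ Y0)) (vnEntropy (Ψ Y1)) with h | h
  · refine ⟨psi v 1, Y0, psi_dens b3 (by norm_num), hY0, ?_⟩
    nlinarith [mul_le_mul_of_nonneg_left h b3.1]
  · refine ⟨psi v 1, Y1, psi_dens b3 (by norm_num), hY1, ?_⟩
    nlinarith [mul_le_mul_of_nonneg_left h (sub_nonneg.2 b3.2)]

omit [DecidableEq d] [DecidableEq e] in
lemma dens_submatrix {ρ : Matrix d d ℂ} (hρ : IsDensity ρ) (f : e ≃ d) :
    IsDensity (ρ.submatrix f f) :=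
  ⟨hρ.1.submatrix f, by rw [trace_submatrix_equiv, hρ.2]⟩

lemma hol_succ {γ ν : ℝ} (hγ : γ ∈ Set.Icc (0 : ℝ) 1) (hν : ν ∈ Set.Icc (0 : ℝ) 1) (n : ℕ)
    {ι : Type*} [Fintype ι] {q : ι → ℝ}
    {ρ : ι → Matrix (Fin (n + 1) → Bool) (Fin (n + 1) → Bool) ℂ} (h : Ens q ρ) :
    hol (qubitPower (n + 1) (gadMap γ ν)) q ρ =
      hol (qubitTensor (gadMap γ ν) (qubitPower n (gadMap γ ν))) q
        (fun a => (ρ a).submatrix (Fin.consEquiv fun _ => Bool) (Fin.consEquiv fun _ => Bool)) := by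
  have hG := good_power hγ hν (n + 1)
  unfold hol
  simp only [← power_succ]
  rw [← ent_submatrix (dens_avg hG h).1 (Fin.consEquiv fun _ => Bool)]
  simp only [fun a => ent_submatrix (hG.pos (h.2.2 a).1) (Fin.consEquiv fun _ => Bool)]
  congr 2
  ext i j
  simp [Matrix.sum_apply]

theorem power_upper {γ ν : ℝ} (hγ : γ ∈ Set.Icc (0 : ℝ) 1) (hν : ν ∈ Set.Icc (0 : ℝ) 1) {R : ℝ}
    (hR : ∀ p ∈ Set.Icc (0 : ℝ) 1, gadRate γ ν p ≤ R) (n : ℕ) :
    ∀ (ι : Type) [Fintype ι] (q : ι → ℝ) (ρ : ι → Matrix (Fin n → Bool) (Fin n → Bool) ℂ),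
      Ens q ρ → hol (qubitPower n (gadMap γ ν)) q ρ ≤ n * R := by
  induction n with
  | zero =>
    intro ι _ q ρ h
    have : ∀ a, ρ a = 1 := fun a => by
      ext i j
      have h1 := (h.2.2 a).2
      rw [trace, Fintype.sum_subsingleton _ i] at h1
      rw [Subsingleton.elim j i, one_apply_eq]
      exact h1
    unfold hol
    simp only [this]
    rw [← Finset.sum_smul, ← Finset.sum_mul, ← Complex.ofReal_sum, h.2.1]
    simp
  | succ n ih =>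
    intro ι _ q ρ h
    rw [hol_succ hγ hν n h]
    obtain ⟨p, hp, q', ρ', h', hle⟩ := upper hγ hν (good_power hγ hν n) (q := q)
      (ρ := fun a => (ρ a).submatrix (Fin.consEquiv fun _ => Bool) (Fin.consEquiv fun _ => Bool))
      ⟨h.1, h.2.1, fun a => dens_submatrix (h.2.2 a) _⟩
    have := ih _ q' ρ' h'
    have := hR p hp
    push_cast
    linarith

theorem power_lower {γ ν p : ℝ} (hγ : γ ∈ Set.Icc (0 : ℝ) 1) (hν : ν ∈ Set.Icc (0 : ℝ) 1)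
    (hp : p ∈ Set.Icc (0 : ℝ) 1) (n : ℕ) :
    ∃ (m : ℕ) (q : Fin m → ℝ) (ρ : Fin m → Matrix (Fin n → Bool) (Fin n → Bool) ℂ),
      IsEnsemble q ρ ∧ n * gadRate γ ν p ≤ holevoInfo (qubitPower n (gadMap γ ν)) q ρ := by
  induction n with
  | zero =>
    refine ⟨1, fun _ => 1, fun _ => 1, ⟨fun _ => zero_le_one, by simp,
      fun _ => ⟨PosSemidef.one, by simp⟩⟩, ?_⟩
    simp [holevoInfo]
  | succ n ih =>
    obtain ⟨m, q₂, ρ₂, h₂, hle⟩ := ih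
    obtain ⟨q₁, ρ₁, h₁, e₁⟩ := two_state hγ hν hp
    obtain ⟨q, ρ, h, e⟩ := prod_ens hγ hν (good_power hγ hν n) h₁ (q₂ := q₂) (ρ₂ := ρ₂) h₂
    have h' : Ens q fun a => (ρ a).submatrix (Fin.consEquiv fun _ : Fin (n + 1) => Bool).symm
        (Fin.consEquiv fun _ : Fin (n + 1) => Bool).symm :=
      ⟨h.1, h.2.1, fun a => dens_submatrix (h.2.2 a) _⟩
    obtain ⟨m', q', ρ', h'', e'⟩ := exists_fin (qubitPower (n + 1) (gadMap γ ν)) h'
    refine ⟨m', q', ρ', h'', ?_⟩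
    rw [e', hol_succ hγ hν n h']
    simp only [submatrix_submatrix, Equiv.symm_comp_self, submatrix_id_id]
    rw [e, e₁]
    have : hol (qubitPower n (gadMap γ ν)) q₂ ρ₂ = holevoInfo (qubitPower n (gadMap γ ν)) q₂ ρ₂ :=
      rfl
    push_cast
    linarith

lemma exists_max (γ ν : ℝ) : ∃ p ∈ Set.Icc (0 : ℝ) 1, ∀ x ∈ Set.Icc (0 : ℝ) 1,
    gadRate γ ν x ≤ gadRate γ ν p := by
  have hc : Continuous (gadRate γ ν) := by
    unfold gadRate; fun_prop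
  obtain ⟨p, hp, h⟩ := isCompact_Icc.exists_isMaxOn (Set.nonempty_Icc.2 zero_le_one)
    hc.continuousOn
  exact ⟨p, hp, h⟩

end Crest.Agent.H0534
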