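import Crest.Agent.H0534.Ent

/-! The three-edge path inequality and the key entropy bound for amplitude damping. -/

set_option autoImplicit false
open Real Matrix Crest.Quantum
open scoped ComplexOrder

namespace Crest.Agent.H0534

variable {n m : Type*} [Fintype n] [DecidableEq n] [Fintype m] [DecidableEq m]

lemma block_psd_aux {A : Matrix n n ℂ} {B : Matrix n m ℂ} {C G : Matrix m m ℂ}
    (h : (fromBlocks A B Bᴴ C).PosSemidef) {t : ℝ} (ht : 0 < t) (hG : Gᴴ = G)
    (hGC : G * ((t : ℂ) • 1 + C) = 1) :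
    (fromBlocks (A - B * G * Bᴴ) ((t : ℂ) • A) ((t : ℂ) • A)
      ((t : ℂ) • ((t : ℂ) • A + B * Bᴴ))).PosSemidef := by
  have h1 := h.conjTranspose_mul_mul_same
    (fromBlocks (1 : Matrix n n ℂ) ((t : ℂ) • (1 : Matrix n n ℂ)) (-(G * Bᴴ)) (0 : Matrix m n ℂ))
  have h2 := psd_smul (posSemidef_conjTranspose_mul_self (fromCols (G * Bᴴ) Bᴴ)) ht.le
  have h3 := h1.add h2
  rw [fromBlocks_conjTranspose, fromBlocks_multiply, fromBlocks_multiply,
    conjTranspose_fromCols_eq_fromRows_conjTranspose, fromRows_mul_fromCols, fromBlocks_smul,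
    fromBlocks_add] at h3
  have hGC' : G * C = 1 - (t : ℂ) • G := by
    rw [← hGC, Matrix.mul_add, Matrix.mul_smul, Matrix.mul_one]; abel
  have hGC2 : ∀ Y : Matrix m n ℂ, G * (C * Y) = Y - (t : ℂ) • (G * Y) := by
    intro Y
    rw [← Matrix.mul_assoc, hGC', Matrix.sub_mul, Matrix.one_mul, Matrix.smul_mul]
  convert h3 using 2
  all_goals
    simp only [conjTranspose_one, conjTranspose_neg, conjTranspose_mul, conjTranspose_conjTranspose,
      hG, conjTranspose_smul, conjTranspose_zero, Matrix.one_mul, Matrix.mul_one, Matrix.zero_mul,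
      Matrix.mul_zero, add_zero, Matrix.neg_mul, Matrix.mul_neg, Matrix.add_mul, Matrix.mul_smul,
      Matrix.smul_mul, Matrix.mul_assoc, hGC2, Matrix.mul_sub, Complex.star_def,
      Complex.conj_ofReal, smul_add, smul_neg, neg_add_rev, neg_neg]
    try abel

lemma path_diag (a : n → ℝ) {B : Matrix n m ℂ} {C : Matrix m m ℂ} {P : Matrix n n ℂ}
    (h : (fromBlocks (diagonal fun j => (a j : ℂ)) B Bᴴ C).PosSemidef) (hP : P.PosSemidef) :
    vnEntropy P + vnEntropy C + ∑ j, negMulLog (a j) + Xi (∑ j, a j) P.trace.re C.trace.re -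
      negMulLog (∑ j, a j) ≤
      vnEntropy (fromBlocks ((diagonal fun j => (a j : ℂ)) + P) B Bᴴ C) := by
  set A : Matrix n n ℂ := diagonal fun j => (a j : ℂ) with hA
  have hA0 := psd_block₁ h
  have hC := psd_block₂ h
  have ha : ∀ j, 0 ≤ a j := fun j => by simpa [hA] using diag_re_nonneg hA0 j
  have hM : (fromBlocks (A + P) B Bᴴ C).PosSemidef := by
    have := h.add (psd_blockDiag hP (PosSemidef.zero (n := m) (R := ℂ)))
    simpa [fromBlocks_add] using this
  have hBB := posSemidef_self_mul_conjTranspose B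
  set p : n → ℝ := fun j => (P j j).re with hp
  set q : n → ℝ := fun j => ((B * Bᴴ) j j).re / a j with hq
  have hp0 : ∀ j, 0 ≤ p j := diag_re_nonneg hP
  have hq0 : ∀ j, 0 ≤ q j := fun j => div_nonneg (diag_re_nonneg hBB j) (ha j)
  have hpP : ∑ j, p j = P.trace.re := by simp [hp, trace]
  have hqC : ∑ j, q j ≤ C.trace.re := by
    set Ai : Matrix n n ℂ := diagonal fun j => (((a j)⁻¹ : ℝ) : ℂ) with hAi
    have hAih : Aiᴴ = Ai := by
      rw [hAi, diagonal_conjTranspose]; congr 1; funext j; simp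
    have hAAA : ∀ Y : Matrix n m ℂ, Ai * (A * (Ai * Y)) = Ai * Y := by
      intro Y
      rw [← Matrix.mul_assoc, ← Matrix.mul_assoc, hAi, hA, diagonal_mul_diagonal,
        diagonal_mul_diagonal]
      congr 2
      funext j
      by_cases h0 : a j = 0
      · simp [h0]
      · have : (a j : ℂ) ≠ 0 := by exact_mod_cast h0
        push_cast
        field_simp
    have h1 := h.conjTranspose_mul_mul_same (fromRows (-(Ai * B)) (1 : Matrix m m ℂ))
    rw [conjTranspose_fromRows_eq_fromCols_conjTranspose, Matrix.mul_assoc,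
      fromBlocks_mul_fromRows, fromCols_mul_fromRows] at h1
    simp only [conjTranspose_one, conjTranspose_neg, conjTranspose_mul, hAih, Matrix.one_mul,
      Matrix.mul_one, Matrix.neg_mul, Matrix.mul_neg, Matrix.mul_add, Matrix.mul_assoc,
      hAAA, neg_neg] at h1
    have h2 := re_trace_nonneg h1
    simp only [trace_add, trace_neg, Complex.add_re, Complex.neg_re] at h2
    have h3 : (Bᴴ * (Ai * B)).trace.re = ∑ j, q j := by
      rw [trace_mul_comm, Matrix.mul_assoc]
      simp only [trace, diag_apply, hAi, diagonal_mul, Complex.re_sum, Complex.re_ofReal_mul, hq]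
      exact Finset.sum_congr rfl fun j _ => by rw [div_eq_inv_mul]
    linarith
  have R1 := ((Rep.ent hP).add (Rep.ent hC)).add
    (Rep.sum Finset.univ fun j _ => Rep.xi (ha j) (hp0 j) (hq0 j))
  have key := R1.le (Rep.ent hM) (by simp) ?_ ?_
  · have := Xi_sum a p q ha hp0 hq0 P.trace.re C.trace.re hpP.le hqC
    rw [Finset.sum_sub_distrib] at this
    linarith
  · rw [trace_fromBlocks', trace_add, hA, trace_diagonal]
    simp only [Complex.add_re, Complex.re_sum, Complex.ofReal_re]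
    ring
  intro t ht
  have hCt := posDef_shift hC ht
  have hPt := posDef_shift hP ht
  let _ : Invertible ((t : ℂ) • (1 : Matrix m m ℂ) + C) := hCt.isUnit.invertible
  set G := ((t : ℂ) • (1 : Matrix m m ℂ) + C)⁻¹ with hG
  have hblk := block_psd_aux h ht (G := G) hCt.inv.1
    (nonsing_inv_mul _ (isUnit_iff_ne_zero.2 hCt.det_pos.ne'))
  have htA : (t : ℂ) • A = diagonal fun j => ((t * a j : ℝ) : ℂ) := by
    rw [hA, ← diagonal_smul]; congr 1; funext j; simp
  have hN := psd_block₁ hblk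
  conv at hblk => rw [htA]
  have hH := ld_H (fun j => t * a j) hPt hblk
  have e1 : ld ((t : ℂ) • 1 + fromBlocks (A + P) B Bᴴ C) =
      ld ((t : ℂ) • 1 + C) + ld ((t : ℂ) • 1 + P + (A - B * G * Bᴴ)) := by
    unfold ld
    rw [shift_fromBlocks, det_fromBlocks₂₂, invOf_eq_nonsing_inv, ← hG,
      show (t : ℂ) • 1 + (A + P) - B * G * Bᴴ = (t : ℂ) • 1 + P + (A - B * G * Bᴴ) by abel,
      norm_mul, log_mul (norm_ne_zero_iff.2 hCt.det_pos.ne')
        (norm_ne_zero_iff.2 (hPt.add_posSemidef hN).det_pos.ne')]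
  rw [e1]
  have e2 : ∀ j, log (1 + t * a j / ((t + p j) * (t + q j))) =
      log (1 + (t * a j) ^ 2 / ((((t : ℂ) • (1 : Matrix n n ℂ) + P) j j).re *
        (((t : ℂ) • ((diagonal fun j => ((t * a j : ℝ) : ℂ)) + B * Bᴴ)) j j).re)) := by
    intro j
    congr 2
    simp only [Matrix.add_apply, Matrix.smul_apply, one_apply_eq, smul_eq_mul, mul_one,
      Complex.add_re, Complex.ofReal_re, diagonal_apply_eq, Complex.re_ofReal_mul, hp, hq]
    rcases (ha j).eq_or_lt with h0 | h0
    · rw [← h0]; simp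
    · have := diag_re_nonneg hP j
      have := diag_re_nonneg hBB j
      field_simp
  simp only [e2]
  linarith

/-- The three-edge path inequality. -/
lemma path3 {A P : Matrix n n ℂ} {B : Matrix n m ℂ} {C : Matrix m m ℂ}
    (h : (fromBlocks A B Bᴴ C).PosSemidef) (hP : P.PosSemidef) :
    St A + St P + St C + E2 (A.trace.re + P.trace.re + C.trace.re) (P.trace.re * C.trace.re) ≤
      vnEntropy (fromBlocks (A + P) B Bᴴ C) := by
  have hA := psd_block₁ h
  obtain ⟨U, h1, h2, h3⟩ := exists_diag hA.1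
  set D : Matrix n n ℂ := diagonal fun i => (hA.1.eigenvalues i : ℂ) with hD
  have hUAU : Uᴴ * A * U = D := by
    conv_lhs => rw [h3]
    rw [← Matrix.mul_assoc, ← Matrix.mul_assoc, h2, Matrix.one_mul, Matrix.mul_assoc, h2,
      Matrix.mul_one]
  set W : Matrix (n ⊕ m) (n ⊕ m) ℂ := fromBlocks Uᴴ 0 0 1 with hW
  have hWW : W * Wᴴ = 1 := by
    rw [hW, fromBlocks_conjTranspose, fromBlocks_multiply, ← fromBlocks_one]
    simp [h2]
  have conj : ∀ Y : Matrix n n ℂ, W * fromBlocks Y B Bᴴ C * Wᴴ =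
      fromBlocks (Uᴴ * Y * U) (Uᴴ * B) (Uᴴ * B)ᴴ C := by
    intro Y
    rw [hW, fromBlocks_conjTranspose, fromBlocks_multiply, fromBlocks_multiply]
    simp
  have hM : (fromBlocks (A + P) B Bᴴ C).PosSemidef := by
    have := h.add (psd_blockDiag hP (PosSemidef.zero (n := m) (R := ℂ)))
    simpa [fromBlocks_add] using this
  have h4 := h.mul_mul_conjTranspose_same W
  rw [conj, hUAU] at h4
  have hP' := hP.conjTranspose_mul_mul_same U
  have h5 := path_diag _ h4 hP'
  rw [← ent_conj hWW hM, conj, Matrix.mul_add, Matrix.add_mul, hUAU]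
  have h6 : vnEntropy (Uᴴ * P * U) = vnEntropy P := by
    simpa using ent_conj (U := Uᴴ) (by simpa using h2) hP
  have h7 : (Uᴴ * P * U).trace = P.trace := by
    simpa using trace_conj (U := Uᴴ) (by simpa using h1) P
  rw [h6, h7, ← ent_eq hA.1, ← re_trace_eq hA.1] at h5
  unfold St
  unfold Xi at h5
  linarith

lemma path3' {A : Matrix n n ℂ} {B : Matrix n m ℂ} {C P : Matrix m m ℂ}
    (h : (fromBlocks A B Bᴴ C).PosSemidef) (hP : P.PosSemidef) :
    St C + St P + St A + E2 (C.trace.re + P.trace.re + A.trace.re) (P.trace.re * A.trace.re) ≤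
      vnEntropy (fromBlocks A B Bᴴ (C + P)) := by
  have h' : (fromBlocks C Bᴴ Bᴴᴴ A).PosSemidef := by
    have := h.submatrix (Equiv.sumComm m n)
    rw [Equiv.sumComm_apply, fromBlocks_submatrix_sum_swap_sum_swap] at this
    simpa using this
  have hM : (fromBlocks A B Bᴴ (C + P)).PosSemidef := by
    have := h.add (psd_blockDiag (PosSemidef.zero (n := n) (R := ℂ)) hP)
    simpa [fromBlocks_add] using this
  have := path3 h' hP
  rw [← ent_submatrix hM (Equiv.sumComm m n), Equiv.sumComm_apply,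
    fromBlocks_submatrix_sum_swap_sum_swap]
  simpa using this

lemma psd_scale {A : Matrix n n ℂ} {B : Matrix n m ℂ} {C : Matrix m m ℂ}
    (h : (fromBlocks A B Bᴴ C).PosSemidef) {a c l : ℝ} (ha : 0 ≤ a) (hc : 0 ≤ c) (hl : 0 ≤ l)
    (e : a * c = l ^ 2) :
    (fromBlocks ((a : ℂ) • A) ((l : ℂ) • B) ((l : ℂ) • B)ᴴ ((c : ℂ) • C)).PosSemidef := by
  have h1 := h.conjTranspose_mul_mul_same
    (fromBlocks (((√a : ℝ) : ℂ) • (1 : Matrix n n ℂ)) 0 0 (((√c : ℝ) : ℂ) • (1 : Matrix m m ℂ)))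
  rw [fromBlocks_conjTranspose, fromBlocks_multiply, fromBlocks_multiply] at h1
  have e1 : √a * √c = l := by rw [← sqrt_mul ha, e, sqrt_sq hl]
  have e2 : √c * √a = l := by rw [mul_comm, e1]
  simp only [conjTranspose_smul, conjTranspose_one, conjTranspose_zero, Matrix.smul_mul,
    Matrix.mul_smul, Matrix.one_mul, Matrix.mul_one, Matrix.zero_mul, Matrix.mul_zero, add_zero,
    zero_add, Complex.star_def, Complex.conj_ofReal, smul_smul, ← Complex.ofReal_mul,
    mul_self_sqrt ha, mul_self_sqrt hc, e1, e2, smul_zero] at h1 ⊢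
  exact h1

lemma gad_split {α β γ δ l u v : ℝ} (hα : 0 ≤ α) (hβ : 0 ≤ β) (hγ : 0 ≤ γ) (hδ : 0 ≤ δ)
    (hu : 0 ≤ u) (hv : 0 ≤ v) (h1 : α + γ = 1) (h2 : β + δ = 1) (h3 : α * δ - l ^ 2 = β * γ)
    (huv : u + v = 1) :
    ∃ α' δ' α'' δ'' w : ℝ, 0 ≤ α' ∧ 0 ≤ δ' ∧ 0 ≤ α'' ∧ 0 ≤ δ'' ∧ 0 ≤ w ∧ w ≤ 1 ∧
      α' + α'' = α ∧ δ' + δ'' = δ ∧ α' * δ' = (w * l) ^ 2 ∧ α'' * δ'' = ((1 - w) * l) ^ 2 ∧
      E2 1 (γ * u * (α * u + β * v) + β * v * (γ * u + δ * v)) ≤
        (E2 (α' * u + β * v + δ' * v) (β * v * (δ' * v)) - negMulLog (α' * u + β * v + δ' * v)) +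
        (E2 (δ'' * v + γ * u + α'' * u) (γ * u * (α'' * u)) -
          negMulLog (δ'' * v + γ * u + α'' * u)) := by
  set m0 := α * u + β * v with hm0
  set m1 := γ * u + δ * v with hm1
  set D := γ * u * m0 + β * v * m1 with hD
  have hm0' : 0 ≤ m0 := by positivity
  have hm1' : 0 ≤ m1 := by positivity
  have hD0 : 0 ≤ D := by positivity
  have hl2 : l ^ 2 = α * δ - β * γ := by linarith
  have hm : m0 + m1 = 1 := by
    rw [hm0, hm1]; linear_combination u * h1 + v * h2 + huv
  rcases hD0.eq_or_lt with h0 | h0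
  · have hβγ : β * γ = 0 := by
      by_contra hne
      have hb : 0 < β := lt_of_le_of_ne hβ fun h => hne (by rw [← h, zero_mul])
      have hg : 0 < γ := lt_of_le_of_ne hγ fun h => hne (by rw [← h, mul_zero])
      have had : 0 < α * δ := by nlinarith [mul_pos hb hg, sq_nonneg l]
      have ha : 0 < α := lt_of_le_of_ne hα fun h => by rw [← h, zero_mul] at had; exact lt_irrefl _ had
      have hd : 0 < δ := lt_of_le_of_ne hδ fun h => by rw [← h, mul_zero] at had; exact lt_irrefl _ had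
      rcases hu.eq_or_lt with hu0 | hu0
      · have hv0 : 0 < v := by linarith
        have : 0 < D := by
          have : 0 < m1 := by positivity
          positivity
        linarith
      · have : 0 < D := by
          have : 0 < m0 := by positivity
          positivity
        linarith
    refine ⟨α, δ, 0, 0, 1, hα, hδ, le_rfl, le_rfl, zero_le_one, le_rfl, by ring, by ring,
      by rw [one_mul]; linarith, by ring, ?_⟩
    rw [← h0, E2_zero 1 zero_le_one, negMulLog_one]
    have e1 := E2_ge (s := α * u + β * v + δ * v) (d := β * v * (δ * v)) (by positivity)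
      (by positivity) (by
        nlinarith [sq_nonneg (β * v - δ * v), mul_nonneg (mul_nonneg hα hu) (mul_nonneg hβ hv),
          mul_nonneg (mul_nonneg hα hu) (mul_nonneg hδ hv), sq_nonneg (α * u)])
    have e2 := E2_ge (s := 0 * v + γ * u + 0 * u) (d := γ * u * (0 * u)) (by positivity)
      (by positivity) (by rw [zero_mul, zero_mul, mul_zero, mul_zero]; positivity)
    linarith
  · have hw1 : 1 - β * v * m1 / D = γ * u * m0 / D := by
      field_simp; rw [hD]; ring
    have hDm : D = m0 * m1 - l ^ 2 * u * v := by rw [hD, hl2, hm0, hm1]; ring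
    refine ⟨β * l ^ 2 * v ^ 2 / D, β * m1 ^ 2 / D, γ * m0 ^ 2 / D, γ * l ^ 2 * u ^ 2 / D,
      β * v * m1 / D, by positivity, by positivity, by positivity, by positivity, by positivity,
      ?_, ?_, ?_, ?_, ?_, ?_⟩
    · have : 0 ≤ γ * u * m0 / D := by positivity
      linarith
    · field_simp; rw [hD, hl2, hm0, hm1]; ring
    · field_simp; rw [hD, hl2, hm0, hm1]; ring
    · field_simp
    · rw [hw1]; field_simp
    · set w := β * v * m1 / D with hw
      have hw0 : 0 ≤ w := by positivity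
      have hw0' : 0 ≤ 1 - w := by rw [hw1]; positivity
      have s1 : β * l ^ 2 * v ^ 2 / D * u + β * v + β * m1 ^ 2 / D * v = w * 1 := by
        rw [hw]; field_simp
        linear_combination (β * v) * hDm + (β * v * m1) * hm
      have d1 : β * v * (β * m1 ^ 2 / D * v) = w ^ 2 * D := by rw [hw]; field_simp
      have s2 : γ * l ^ 2 * u ^ 2 / D * v + γ * u + γ * m0 ^ 2 / D * u = (1 - w) * 1 := by
        rw [hw1]; field_simp
        linear_combination (γ * u) * hDm + (γ * u * m0) * hm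
      have d2 : γ * u * (γ * m0 ^ 2 / D * u) = (1 - w) ^ 2 * D := by rw [hw1]; field_simp
      rw [s1, d1, s2, d2, E2_scale hw0, E2_scale hw0']
      simp only [mul_one]
      linarith

/-- The key bound for the output of `N ⊗ id`. -/
lemma gad_key {A B C : Matrix n n ℂ} (h : (fromBlocks A B Bᴴ C).PosSemidef) {α β γ δ l : ℝ}
    (hα : 0 ≤ α) (hβ : 0 ≤ β) (hγ : 0 ≤ γ) (hδ : 0 ≤ δ) (hl : 0 ≤ l) (h1 : α + γ = 1)
    (h2 : β + δ = 1) (h3 : α * δ - l ^ 2 = β * γ) {u v : ℝ} (hu : A.trace.re = u)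
    (hv : C.trace.re = v) (huv : u + v = 1) :
    (fromBlocks ((α : ℂ) • A + (β : ℂ) • C) ((l : ℂ) • B) ((l : ℂ) • Bᴴ)
      ((γ : ℂ) • A + (δ : ℂ) • C)).PosSemidef ∧
    E2 1 (γ * u * (α * u + β * v) + β * v * (γ * u + δ * v)) + St A + St C ≤
      vnEntropy (fromBlocks ((α : ℂ) • A + (β : ℂ) • C) ((l : ℂ) • B) ((l : ℂ) • Bᴴ)
      ((γ : ℂ) • A + (δ : ℂ) • C)) := by
  have hA := psd_block₁ h
  have hC := psd_block₂ h
  have hu0 : 0 ≤ u := hu ▸ re_trace_nonneg hA
  have hv0 : 0 ≤ v := hv ▸ re_trace_nonneg hC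
  obtain ⟨α', δ', α'', δ'', w, a1, a2, a3, a4, a5, a6, a7, a8, a9, a10, a11⟩ :=
    gad_split hα hβ hγ hδ hu0 hv0 h1 h2 h3 huv
  have p1 := psd_scale h a1 a2 (mul_nonneg a5 hl) a9
  have p2 := psd_scale h a3 a4 (mul_nonneg (sub_nonneg.2 a6) hl) a10
  have q1 := path3 p1 (psd_smul hC hβ)
  have q2 := path3' p2 (psd_smul hA hγ)
  have hM1 : (fromBlocks ((α' : ℂ) • A + (β : ℂ) • C) (((w * l : ℝ) : ℂ) • B)
      (((w * l : ℝ) : ℂ) • B)ᴴ ((δ' : ℂ) • C)).PosSemidef := by
    have := p1.add (psd_blockDiag (psd_smul hC hβ) (PosSemidef.zero (n := n) (R := ℂ)))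
    rw [fromBlocks_add, add_zero, add_zero, add_zero] at this
    exact this
  have hM2 : (fromBlocks ((α'' : ℂ) • A) ((((1 - w) * l : ℝ) : ℂ) • B)
      ((((1 - w) * l : ℝ) : ℂ) • B)ᴴ ((δ'' : ℂ) • C + (γ : ℂ) • A)).PosSemidef := by
    have := p2.add (psd_blockDiag (PosSemidef.zero (n := n) (R := ℂ)) (psd_smul hA hγ))
    rw [fromBlocks_add, add_zero, add_zero, add_zero] at this
    exact this
  have hsum : fromBlocks ((α : ℂ) • A + (β : ℂ) • C) ((l : ℂ) • B) ((l : ℂ) • Bᴴ)
      ((γ : ℂ) • A + (δ : ℂ) • C) =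
      fromBlocks ((α' : ℂ) • A + (β : ℂ) • C) (((w * l : ℝ) : ℂ) • B)
        (((w * l : ℝ) : ℂ) • B)ᴴ ((δ' : ℂ) • C) +
      fromBlocks ((α'' : ℂ) • A) ((((1 - w) * l : ℝ) : ℂ) • B)
        ((((1 - w) * l : ℝ) : ℂ) • B)ᴴ ((δ'' : ℂ) • C + (γ : ℂ) • A) := by
    rw [fromBlocks_add, ← a7, ← a8]
    simp only [conjTranspose_smul, Complex.star_def, Complex.conj_ofReal]
    congr 1
    · push_cast; module
    · push_cast; module
    · push_cast; module
    · push_cast; module
  refine ⟨hsum ▸ hM1.add hM2, ?_⟩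
  have q3 := St_add hM1 hM2
  rw [← hsum] at q3
  rw [St_smul hA a1, St_smul hC hβ, St_smul hC a2] at q1
  rw [St_smul hA a3, St_smul hA hγ, St_smul hC a4] at q2
  have tr : ∀ (c : ℝ) (X : Matrix n n ℂ), ((c : ℂ) • X).trace.re = c * X.trace.re := by
    intro c X
    rw [trace_smul, smul_eq_mul, Complex.re_ofReal_mul]
  simp only [tr, hu, hv] at q1 q2
  simp only [St, trace_fromBlocks', trace_add, Complex.add_re, tr, hu, hv] at q3
  rw [show α * u + β * v + (γ * u + δ * v) = 1 by linear_combination u * h1 + v * h2 + huv,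
    negMulLog_one, show α'' * u + (δ'' * v + γ * u) = δ'' * v + γ * u + α'' * u by ring] at q3
  have e1 : St A = (α' + α'' + γ) * St A := by rw [a7, h1, one_mul]
  have e2 : St C = (β + (δ' + δ'')) * St C := by rw [a8, h2, one_mul]
  nlinarith

end Crest.Agent.H0534
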