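import Mathlib

/-! Signed-measure bookkeeping: an inequality between sums of `log (t + x)` for all `t > 0`
yields the corresponding inequality between sums of `-x log x`. -/

set_option autoImplicit false
open Real Filter Topology Set

namespace Crest.Agent.H0534

/-- `ℓ t = ∫ log (t + x) dm`, `n = ∫ dm`, `s = ∫ x dm`, `E = ∫ -x log x dm`. -/
def Rep (ℓ : ℝ → ℝ) (n s E : ℝ) : Prop :=
  ∃ Φ : ℝ → ℝ, ContinuousOn Φ (Ici 0) ∧ (∀ t, 0 < t → HasDerivAt Φ (ℓ t) t) ∧ Φ 0 = -E - s ∧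
    Tendsto (fun R => Φ R - (n * (R * log R - R) + s * log R)) atTop (𝓝 0)

lemma tendsto_aux (x : ℝ) (hx : 0 ≤ x) :
    Tendsto (fun R : ℝ => (R + x) * (log (R + x) - log R) - x) atTop (𝓝 0) := by
  have h0 : Tendsto (fun R : ℝ => x * x / R) atTop (𝓝 0) := tendsto_const_nhds.div_atTop tendsto_id
  refine tendsto_of_tendsto_of_tendsto_of_le_of_le' tendsto_const_nhds h0 ?_ ?_
  · filter_upwards [eventually_gt_atTop 0] with R hR
    have h1 : log (R / (R + x)) ≤ R / (R + x) - 1 := log_le_sub_one_of_pos (by positivity)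
    rw [log_div hR.ne' (by positivity)] at h1
    have h2 : (R + x) * (log R - log (R + x)) ≤ (R + x) * (R / (R + x) - 1) :=
      mul_le_mul_of_nonneg_left h1 (by positivity)
    have h3 : (R + x) * (R / (R + x) - 1) = -x := by field_simp; ring
    nlinarith
  · filter_upwards [eventually_gt_atTop 0] with R hR
    have h1 : log ((R + x) / R) ≤ (R + x) / R - 1 := log_le_sub_one_of_pos (by positivity)
    rw [log_div (by positivity) hR.ne'] at h1
    have h2 : (R + x) * (log (R + x) - log R) ≤ (R + x) * ((R + x) / R - 1) :=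
      mul_le_mul_of_nonneg_left h1 (by positivity)
    have h3 : (R + x) * ((R + x) / R - 1) - x = x * x / R := by field_simp; ring
    linarith

lemma Rep.point (x : ℝ) (hx : 0 ≤ x) : Rep (fun t => log (t + x)) 1 x (negMulLog x) := by
  refine ⟨fun R => (R + x) * log (R + x) - (R + x), ?_, ?_, ?_, ?_⟩
  · have : Continuous fun R : ℝ => (R + x) * log (R + x) :=
      continuous_mul_log.comp (continuous_id.add continuous_const)
    exact (this.sub (continuous_id.add continuous_const)).continuousOn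
  · intro t ht
    have h1 : HasDerivAt (fun R : ℝ => R + x) 1 t := (hasDerivAt_id t).add_const x
    have h2 := (hasDerivAt_mul_log (x := t + x) (by positivity)).comp t h1
    have h3 := h2.sub h1
    refine (h3.congr_deriv ?_)
    ring
  · simp [negMulLog]
  · refine (tendsto_aux x hx).congr fun R => ?_
    ring

lemma Rep.add {ℓ₁ ℓ₂ : ℝ → ℝ} {n₁ s₁ E₁ n₂ s₂ E₂ : ℝ} (h₁ : Rep ℓ₁ n₁ s₁ E₁)
    (h₂ : Rep ℓ₂ n₂ s₂ E₂) : Rep (fun t => ℓ₁ t + ℓ₂ t) (n₁ + n₂) (s₁ + s₂) (E₁ + E₂) := by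
  obtain ⟨Φ₁, a₁, b₁, c₁, d₁⟩ := h₁
  obtain ⟨Φ₂, a₂, b₂, c₂, d₂⟩ := h₂
  refine ⟨fun R => Φ₁ R + Φ₂ R, a₁.add a₂, fun t ht => (b₁ t ht).add (b₂ t ht), ?_, ?_⟩
  · simp only [c₁, c₂]; ring
  · have := d₁.add d₂
    rw [add_zero] at this
    refine this.congr fun R => ?_
    ring

lemma Rep.smul {ℓ : ℝ → ℝ} {n s E : ℝ} (h : Rep ℓ n s E) (c : ℝ) :
    Rep (fun t => c * ℓ t) (c * n) (c * s) (c * E) := by
  obtain ⟨Φ, a, b, c₁, d⟩ := h
  refine ⟨fun R => c * Φ R, continuousOn_const.mul a, fun t ht => (b t ht).const_mul c, ?_, ?_⟩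
  · simp only [c₁]; ring
  · have := d.const_mul c
    rw [mul_zero] at this
    refine this.congr fun R => ?_
    ring

lemma Rep.congr {ℓ ℓ' : ℝ → ℝ} {n s E n' s' E' : ℝ} (h : Rep ℓ n s E)
    (hl : ∀ t, 0 < t → ℓ t = ℓ' t) (hn : n = n') (hs : s = s') (hE : E = E') :
    Rep ℓ' n' s' E' := by
  obtain ⟨Φ, a, b, c₁, d⟩ := h
  subst hn hs hE
  exact ⟨Φ, a, fun t ht => hl t ht ▸ b t ht, c₁, d⟩

lemma Rep.sub {ℓ₁ ℓ₂ : ℝ → ℝ} {n₁ s₁ E₁ n₂ s₂ E₂ : ℝ} (h₁ : Rep ℓ₁ n₁ s₁ E₁)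
    (h₂ : Rep ℓ₂ n₂ s₂ E₂) : Rep (fun t => ℓ₁ t - ℓ₂ t) (n₁ - n₂) (s₁ - s₂) (E₁ - E₂) :=
  (h₁.add (h₂.smul (-1))).congr (fun t _ => by ring) (by ring) (by ring) (by ring)

lemma Rep.zero : Rep (fun _ => 0) 0 0 0 :=
  ⟨fun _ => 0, continuousOn_const, fun t _ => hasDerivAt_const t 0, by simp, by simp⟩

lemma Rep.sum {ι : Type*} (S : Finset ι) {ℓ : ι → ℝ → ℝ} {n s E : ι → ℝ}
    (h : ∀ i ∈ S, Rep (ℓ i) (n i) (s i) (E i)) :
    Rep (fun t => ∑ i ∈ S, ℓ i t) (∑ i ∈ S, n i) (∑ i ∈ S, s i) (∑ i ∈ S, E i) := by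
  classical
  induction S using Finset.induction_on with
  | empty => simpa using Rep.zero
  | insert a S ha ih =>
    simp only [Finset.sum_insert ha]
    exact (h a (Finset.mem_insert_self _ _)).add
      (ih fun i hi => h i (Finset.mem_insert_of_mem hi))

lemma Rep.nonneg {ℓ : ℝ → ℝ} {E : ℝ} (h : Rep ℓ 0 0 E) (hl : ∀ t, 0 < t → 0 ≤ ℓ t) : 0 ≤ E := by
  obtain ⟨Φ, a, b, c₁, d⟩ := h
  have hm : MonotoneOn Φ (Ici 0) := by
    refine monotoneOn_of_deriv_nonneg (convex_Ici 0) a ?_ ?_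
    · rw [interior_Ici]
      exact fun t ht => (b t ht).differentiableAt.differentiableWithinAt
    · rw [interior_Ici]
      intro t ht
      rw [(b t ht).deriv]
      exact hl t ht
  have d' : Tendsto Φ atTop (𝓝 0) := by simpa using d
  have : Φ 0 ≤ 0 := by
    refine ge_of_tendsto d' ?_
    filter_upwards [eventually_ge_atTop 0] with R hR
    exact hm (mem_Ici.2 le_rfl) (mem_Ici.2 hR) hR
  linarith

lemma Rep.le {ℓ₁ ℓ₂ : ℝ → ℝ} {n₁ s₁ E₁ n₂ s₂ E₂ : ℝ} (h₁ : Rep ℓ₁ n₁ s₁ E₁)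
    (h₂ : Rep ℓ₂ n₂ s₂ E₂) (hn : n₁ = n₂) (hs : s₁ = s₂) (hl : ∀ t, 0 < t → ℓ₁ t ≤ ℓ₂ t) :
    E₁ ≤ E₂ := by
  have := ((h₂.sub h₁).congr (fun _ _ => rfl) (by rw [hn, sub_self]) (by rw [hs, sub_self])
    rfl).nonneg fun t ht => sub_nonneg.2 (hl t ht)
  linarith

lemma Rep.eq {ℓ₁ ℓ₂ : ℝ → ℝ} {n₁ s₁ E₁ n₂ s₂ E₂ : ℝ} (h₁ : Rep ℓ₁ n₁ s₁ E₁)
    (h₂ : Rep ℓ₂ n₂ s₂ E₂) (hn : n₁ = n₂) (hs : s₁ = s₂) (hl : ∀ t, 0 < t → ℓ₁ t = ℓ₂ t) :
    E₁ = E₂ :=
  le_antisymm (h₁.le h₂ hn hs fun t ht => (hl t ht).le)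
    (h₂.le h₁ hn.symm hs.symm fun t ht => (hl t ht).ge)

/-- Entropy of a `2 × 2` positive matrix with trace `s` and determinant `d`. -/
noncomputable def E2 (s d : ℝ) : ℝ :=
  negMulLog ((s + √(s ^ 2 - 4 * d)) / 2) + negMulLog ((s - √(s ^ 2 - 4 * d)) / 2)

lemma Rep.quad {s d : ℝ} (hs : 0 ≤ s) (hd : 0 ≤ d) (h4 : 4 * d ≤ s ^ 2) :
    Rep (fun t => log (t ^ 2 + s * t + d)) 2 s (E2 s d) := by
  have hq : √(s ^ 2 - 4 * d) ≤ s := by
    rw [sqrt_le_left hs]; linarith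
  have hq0 : 0 ≤ √(s ^ 2 - 4 * d) := sqrt_nonneg _
  have hq2 : √(s ^ 2 - 4 * d) ^ 2 = s ^ 2 - 4 * d := sq_sqrt (by linarith)
  refine ((Rep.point ((s + √(s ^ 2 - 4 * d)) / 2) (by positivity)).add
    (Rep.point ((s - √(s ^ 2 - 4 * d)) / 2) (by linarith))).congr ?_ (by norm_num) (by ring) rfl
  intro t ht
  have h1 : 0 < t + (s - √(s ^ 2 - 4 * d)) / 2 := by linarith
  rw [← log_mul (by positivity) h1.ne']
  congr 1
  nlinarith

lemma E2_scale {s d w : ℝ} (hw : 0 ≤ w) :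
    E2 (w * s) (w ^ 2 * d) = w * E2 s d + negMulLog w * s := by
  have : √((w * s) ^ 2 - 4 * (w ^ 2 * d)) = w * √(s ^ 2 - 4 * d) := by
    rw [show (w * s) ^ 2 - 4 * (w ^ 2 * d) = w ^ 2 * (s ^ 2 - 4 * d) by ring,
      sqrt_mul (by positivity), sqrt_sq hw]
  unfold E2
  rw [this, show (w * s + w * √(s ^ 2 - 4 * d)) / 2 = w * ((s + √(s ^ 2 - 4 * d)) / 2) by ring,
    show (w * s - w * √(s ^ 2 - 4 * d)) / 2 = w * ((s - √(s ^ 2 - 4 * d)) / 2) by ring,
    negMulLog_mul, negMulLog_mul]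
  ring

lemma E2_one (d : ℝ) : E2 1 d = binEntropy ((1 + √(1 - 4 * d)) / 2) := by
  rw [binEntropy_eq_negMulLog_add_negMulLog_one_sub]
  unfold E2
  rw [one_pow]
  congr 2
  ring

lemma E2_ge {s d : ℝ} (hs : 0 ≤ s) (hd : 0 ≤ d) (h4 : 4 * d ≤ s ^ 2) : negMulLog s ≤ E2 s d := by
  have h := ((Rep.point s hs).add (Rep.point 0 le_rfl)).le (Rep.quad hs hd h4) (by norm_num)
    (by ring) ?_
  · simpa using h
  · intro t ht
    rw [← log_mul (by positivity) (by positivity)]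
    exact log_le_log (by positivity) (by nlinarith)

lemma E2_zero (s : ℝ) (hs : 0 ≤ s) : E2 s 0 = negMulLog s := by
  simp [E2, sqrt_sq hs]

/-- The excess entropy of the scalar three-edge path. -/
noncomputable def Xi (a p q : ℝ) : ℝ := E2 (a + p + q) (p * q) - negMulLog p - negMulLog q

lemma Rep.xi {a p q : ℝ} (ha : 0 ≤ a) (hp : 0 ≤ p) (hq : 0 ≤ q) :
    Rep (fun t => log (1 + t * a / ((t + p) * (t + q)))) 0 a (Xi a p q) := by
  refine (((Rep.quad (s := a + p + q) (d := p * q) (by positivity) (by positivity)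
    (by nlinarith [sq_nonneg (p - q), mul_nonneg ha hp, mul_nonneg ha hq, sq_nonneg a])).sub
    (Rep.point p hp)).sub (Rep.point q hq)).congr ?_ (by ring) (by ring) rfl
  intro t ht
  have h1 : 0 < t + p := by positivity
  have h2 : 0 < t + q := by positivity
  rw [show 1 + t * a / ((t + p) * (t + q)) = (t ^ 2 + (a + p + q) * t + p * q) / ((t + p) * (t + q))
    by field_simp; ring, log_div (by positivity) (by positivity), log_mul h1.ne' h2.ne']
  ring

lemma Xi_scale {a p q w : ℝ} (hw : 0 ≤ w) :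
    Xi (w * a) (w * p) (w * q) = w * Xi a p q + negMulLog w * a := by
  unfold Xi
  rw [show w * a + w * p + w * q = w * (a + p + q) by ring,
    show w * p * (w * q) = w ^ 2 * (p * q) by ring, E2_scale hw, negMulLog_mul, negMulLog_mul]
  ring

lemma Xi_zero {p q : ℝ} (hp : 0 ≤ p) (hq : 0 ≤ q) : Xi 0 p q = 0 :=
  (Rep.xi le_rfl hp hq).eq Rep.zero rfl rfl fun t _ => by simp

/-- tangent inequality for `(x, y) ↦ log (1 + κ / (x y))`. -/
lemma log_tangent {κ x y x₀ y₀ : ℝ} (hκ : 0 ≤ κ) (hx : 0 < x) (hy : 0 < y) (hx₀ : 0 < x₀)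
    (hy₀ : 0 < y₀) :
    log (1 + κ / (x₀ * y₀)) - κ / (x₀ * y₀ + κ) * ((x - x₀) / x₀ + (y - y₀) / y₀) ≤
      log (1 + κ / (x * y)) := by
  set θ := κ / (x₀ * y₀ + κ) with hθ
  have hθ0 : 0 ≤ θ := by positivity
  have hθ1 : θ ≤ 1 := by
    rw [hθ, div_le_one (by positivity)]; nlinarith [mul_pos hx₀ hy₀]
  have hc := strictConcaveOn_log_Ioi.concaveOn.2 (mem_Ioi.2 one_pos)
    (mem_Ioi.2 (by positivity : (0 : ℝ) < x₀ * y₀ / (x * y))) (by linarith : 0 ≤ 1 - θ) hθ0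
    (by ring)
  simp only [smul_eq_mul, log_one, mul_zero, zero_add, mul_one] at hc
  have he : 1 + κ / (x * y) = (1 + κ / (x₀ * y₀)) * (1 - θ + θ * (x₀ * y₀ / (x * y))) := by
    rw [hθ]; field_simp; ring
  have hpos : 0 < 1 - θ + θ * (x₀ * y₀ / (x * y)) := by
    have : 0 < (1 + κ / (x₀ * y₀)) * (1 - θ + θ * (x₀ * y₀ / (x * y))) := by
      rw [← he]; positivity
    exact pos_of_mul_pos_left this (by positivity) |> fun h => by
      rcases (mul_pos_iff.1 this) with h' | h'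
      · exact h'.2
      · exact absurd h'.1 (not_lt.2 (by positivity))
  rw [he, log_mul (by positivity) hpos.ne']
  have l1 : log (x / x₀) ≤ x / x₀ - 1 := log_le_sub_one_of_pos (by positivity)
  have l2 : log (y / y₀) ≤ y / y₀ - 1 := log_le_sub_one_of_pos (by positivity)
  have l3 : log (x₀ * y₀ / (x * y)) = -log (x / x₀) - log (y / y₀) := by
    rw [log_div (by positivity) (by positivity), log_mul hx₀.ne' hy₀.ne', log_mul hx.ne' hy.ne',
      log_div hx.ne' hx₀.ne', log_div hy.ne' hy₀.ne']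
    ring
  have e1 : (x - x₀) / x₀ = x / x₀ - 1 := by field_simp
  have e2 : (y - y₀) / y₀ = y / y₀ - 1 := by field_simp
  rw [e1, e2]
  rw [l3] at hc
  nlinarith [mul_le_mul_of_nonneg_left l1 hθ0, mul_le_mul_of_nonneg_left l2 hθ0]

/-- Superadditivity of the scalar path functional. -/
lemma Xi_sum {ι : Type*} [Fintype ι] (a p q : ι → ℝ) (ha : ∀ i, 0 ≤ a i) (hp : ∀ i, 0 ≤ p i)
    (hq : ∀ i, 0 ≤ q i) (P Q : ℝ) (hP : ∑ i, p i ≤ P) (hQ : ∑ i, q i ≤ Q) :
    Xi (∑ i, a i) P Q - negMulLog (∑ i, a i) ≤ ∑ i, (Xi (a i) (p i) (q i) - negMulLog (a i)) := by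
  set A := ∑ i, a i with hA
  have hP0 : 0 ≤ P := le_trans (Finset.sum_nonneg fun i _ => hp i) hP
  have hQ0 : 0 ≤ Q := le_trans (Finset.sum_nonneg fun i _ => hq i) hQ
  have hA0 : 0 ≤ A := Finset.sum_nonneg fun i _ => ha i
  rcases hA0.eq_or_lt with h0 | hpos
  · have : ∀ i, a i = 0 := fun i =>
      (Finset.sum_eq_zero_iff_of_nonneg fun i _ => ha i).1 (hA ▸ h0.symm) i (Finset.mem_univ _)
    rw [← h0, Xi_zero hP0 hQ0]
    simp [this, Xi_zero (hp _) (hq _)]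
  set w : ι → ℝ := fun i => a i / A with hw
  have hw0 : ∀ i, 0 ≤ w i := fun i => div_nonneg (ha i) hA0
  have hw1 : ∑ i, w i = 1 := by
    simp only [hw]; rw [← Finset.sum_div, div_self hpos.ne']
  have key : ∀ i, Xi (a i) (p i) (q i) - negMulLog (a i) =
      w i * (Xi A (p i / w i) (q i / w i) - negMulLog A) := by
    intro i
    rcases (hw0 i).eq_or_lt with h | h
    · have : a i = 0 := by
        have h' : a i / A = 0 := h.symm
        rcases div_eq_zero_iff.1 h' with h' | h'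
        · exact h'
        · exact absurd h' hpos.ne'
      rw [← h, this, Xi_zero (hp i) (hq i)]; simp
    · have e1 : a i = w i * A := by simp only [hw]; field_simp
      have e2 : p i = w i * (p i / w i) := by field_simp
      have e3 : q i = w i * (q i / w i) := by field_simp
      conv_lhs => rw [e1, e2, e3, Xi_scale h.le, negMulLog_mul]
      ring
  simp only [key, mul_sub, Finset.sum_sub_distrib, ← Finset.sum_mul, hw1, one_mul]
  have R1 := Rep.xi hA0 hP0 hQ0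
  have R2 := Rep.sum Finset.univ (fun i _ =>
    (Rep.xi hA0 (div_nonneg (hp i) (hw0 i)) (div_nonneg (hq i) (hw0 i))).smul (w i))
  have := R1.le R2 (by simp) (by rw [← Finset.sum_mul, hw1, one_mul]) ?_
  · linarith
  intro t ht
  have hx₀ : 0 < t + P := by positivity
  have hy₀ : 0 < t + Q := by positivity
  set θ := t * A / ((t + P) * (t + Q) + t * A) with hθ
  have hθ0 : 0 ≤ θ := by positivity
  have each : ∀ i, w i * log (1 + t * A / ((t + P) * (t + Q))) -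
      θ * ((p i - w i * P) / (t + P) + (q i - w i * Q) / (t + Q)) ≤
      w i * log (1 + t * A / ((t + p i / w i) * (t + q i / w i))) := by
    intro i
    rcases (hw0 i).eq_or_lt with h | h
    · rw [← h]
      have := hp i
      have := hq i
      have : 0 ≤ θ * ((p i - 0 * P) / (t + P) + (q i - 0 * Q) / (t + Q)) := by
        simp only [zero_mul, sub_zero]; positivity
      linarith
    · have hx : 0 < t + p i / w i := by have := hp i; positivity
      have hy : 0 < t + q i / w i := by have := hq i; positivity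
      have h1 := mul_le_mul_of_nonneg_left (log_tangent (κ := t * A) (by positivity) hx hy hx₀ hy₀)
        h.le
      have e : w i * (θ * ((t + p i / w i - (t + P)) / (t + P) + (t + q i / w i - (t + Q)) / (t + Q)))
          = θ * ((p i - w i * P) / (t + P) + (q i - w i * Q) / (t + Q)) := by
        field_simp; ring
      rw [mul_sub, e] at h1
      exact h1
  have hs := Finset.sum_le_sum fun i (_ : i ∈ Finset.univ) => each i
  rw [Finset.sum_sub_distrib, ← Finset.sum_mul, hw1, one_mul, ← Finset.mul_sum,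
    Finset.sum_add_distrib, ← Finset.sum_div, ← Finset.sum_div, Finset.sum_sub_distrib,
    Finset.sum_sub_distrib, ← Finset.sum_mul, ← Finset.sum_mul, hw1, one_mul, one_mul] at hs
  have n1 : (∑ i, p i - P) / (t + P) ≤ 0 := div_nonpos_of_nonpos_of_nonneg (by linarith) hx₀.le
  have n2 : (∑ i, q i - Q) / (t + Q) ≤ 0 := div_nonpos_of_nonpos_of_nonneg (by linarith) hy₀.le
  nlinarith [mul_nonneg hθ0 (neg_nonneg.2 (add_nonpos n1 n2))]

/-- Jensen for the entropy as a function of the "concurrence". -/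
lemma conc_jensen {ι : Type*} [Fintype ι] (w x : ι → ℝ) (hw : ∀ i, 0 ≤ w i) (hw1 : ∑ i, w i = 1)
    (hx : ∀ i, 0 ≤ x i) (hx1 : ∀ i, x i ≤ 1) (y : ℝ) (hy : 0 ≤ y) (hy1 : y ≤ 1)
    (hxy : y ≤ ∑ i, w i * x i) : E2 1 (y ^ 2 / 4) ≤ ∑ i, w i * E2 1 (x i ^ 2 / 4) := by
  have R : ∀ z : ℝ, 0 ≤ z → z ≤ 1 →
      Rep (fun t => z * log (1 + 4⁻¹ / (t * (t + z⁻¹)))) 0 0 (E2 1 (z ^ 2 / 4)) := by
    intro z hz hz1
    rcases hz.eq_or_lt with h | h
    · subst h
      refine Rep.zero.congr (fun t _ => by simp) rfl rfl ?_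
      rw [show (0 : ℝ) ^ 2 / 4 = 0 by norm_num, E2_zero 1 zero_le_one]; simp
    have h1 : 1 ≤ z⁻¹ := one_le_inv₀ h |>.2 hz1
    refine ((((Rep.quad (s := z⁻¹) (d := 4⁻¹) (by positivity) (by norm_num)
      (by nlinarith)).sub (Rep.point z⁻¹ (by positivity))).sub (Rep.point 0 le_rfl)).smul z).congr
      ?_ (by ring) (by ring) ?_
    · intro t ht
      congr 1
      have h2 : 0 < t + z⁻¹ := by positivity
      rw [show 1 + 4⁻¹ / (t * (t + z⁻¹)) = (t ^ 2 + z⁻¹ * t + 4⁻¹) / (t * (t + z⁻¹)) by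
        field_simp, log_div (by positivity) (by positivity), log_mul ht.ne' h2.ne', add_zero]
      ring
    · have e := E2_scale (s := z⁻¹) (d := 4⁻¹) hz
      rw [mul_inv_cancel₀ h.ne'] at e
      rw [div_eq_mul_inv, e]
      have e2 := negMulLog_mul z z⁻¹
      rw [mul_inv_cancel₀ h.ne', negMulLog_one] at e2
      rw [negMulLog_zero]
      linarith
  refine (R y hy hy1).le (Rep.sum Finset.univ fun i _ => (R (x i) (hx i) (hx1 i)).smul (w i))
    (by simp) (by simp) ?_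
  intro t ht
  rcases hy.eq_or_lt with h | h
  · rw [← h, zero_mul]
    refine Finset.sum_nonneg fun i _ => mul_nonneg (hw i) (mul_nonneg (hx i) (log_nonneg ?_))
    have := hx i
    have : (0 : ℝ) ≤ 4⁻¹ / (t * (t + (x i)⁻¹)) := by positivity
    linarith
  set K := log (1 + 4⁻¹ / (t * (t + y⁻¹))) with hK
  have hK0 : 0 ≤ K := by
    refine log_nonneg ?_
    have : (0 : ℝ) ≤ 4⁻¹ / (t * (t + y⁻¹)) := by positivity
    linarith
  set θ := (4⁻¹ : ℝ) / (t * (t + y⁻¹) + 4⁻¹) with hθ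
  have hθ0 : 0 ≤ θ := by positivity
  have hy₀ : 0 < t + y⁻¹ := by positivity
  have each : ∀ i, x i * K - θ * ((1 - x i * y⁻¹) / (t + y⁻¹)) ≤
      x i * log (1 + 4⁻¹ / (t * (t + (x i)⁻¹))) := by
    intro i
    rcases (hx i).eq_or_lt with h' | h'
    · rw [← h']
      have : 0 ≤ θ * ((1 - 0 * y⁻¹) / (t + y⁻¹)) := by
        simp only [zero_mul, sub_zero]; positivity
      linarith
    · have h1 := mul_le_mul_of_nonneg_left (log_tangent (κ := 4⁻¹) (x := t) (y := t + (x i)⁻¹)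
        (x₀ := t) (y₀ := t + y⁻¹) (by norm_num) ht (by positivity) ht hy₀) h'.le
      have e : x i * (θ * ((t - t) / t + (t + (x i)⁻¹ - (t + y⁻¹)) / (t + y⁻¹))) =
          θ * ((1 - x i * y⁻¹) / (t + y⁻¹)) := by
        field_simp; ring
      rw [mul_sub, e] at h1
      exact h1
  have hs := Finset.sum_le_sum fun i (_ : i ∈ Finset.univ) =>
    mul_le_mul_of_nonneg_left (each i) (hw i)
  refine le_trans ?_ hs
  have e : ∑ i, w i * (x i * K - θ * ((1 - x i * y⁻¹) / (t + y⁻¹))) =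
      (∑ i, w i * x i) * (K + θ * y⁻¹ / (t + y⁻¹)) - (∑ i, w i) * (θ / (t + y⁻¹)) := by
    rw [Finset.sum_mul, Finset.sum_mul, ← Finset.sum_sub_distrib]
    refine Finset.sum_congr rfl fun i _ => ?_
    ring
  rw [e, hw1]
  have h2 : y * (K + θ * y⁻¹ / (t + y⁻¹)) ≤ (∑ i, w i * x i) * (K + θ * y⁻¹ / (t + y⁻¹)) :=
    mul_le_mul_of_nonneg_right hxy (by positivity)
  have h3 : y * (K + θ * y⁻¹ / (t + y⁻¹)) = y * K + θ / (t + y⁻¹) := by
    field_simp
  linarith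

end Crest.Agent.H0534
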